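import Vale.Agent.P188.Gr.Defs

/-! Part Gr, file Milnor: Milnor lemma.
PLAN. Put `z i = s ^ i * y * (s ^ i)⁻¹`, `A n = closure {z i | 1 ≤ i ≤ n}`, `P n e` the product. `P n e * (s ^ n)⁻¹ ∈ A n`
(induction, `List.ofFn_succ'`, `List.prod_concat`). A collision gives `m` with `z (m + 1) ∈ A m`: induction on `n`; equal
last bits cancel, otherwise `a s^(n+1) y = a' s^(n+1)`. Conjugating by `s` shows `z i ∈ A m` for all `i ≥ 1`
(conjugation by `s` maps `A m` into itself). Use `s = t` and `s = t⁻¹`, and `y` itself.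
`collide`: otherwise `2 ^ n ≤ card (bl {s, s * y} n) ≤ C (n + 1) ^ d` (`tendsto_pow_const_div_const_pow_of_one_lt`). -/

namespace Vale.Agent.P188

open Finset

variable {K : Type*} [Group K] {S : Finset K}

theorem Milnor_prod {J : Type*} [Group J] (s y : J) (n : ℕ) (e : Fin n → Bool) :
    (List.ofFn fun i => s * (if e i then y else 1)).prod * (s ^ n)⁻¹ ∈
      Subgroup.closure ((fun i : ℕ => s ^ i * y * (s ^ i)⁻¹) '' Set.Icc 1 n) := by
  induction n with
  | zero => simp
  | succ n ih =>
    have h1 := Subgroup.closure_mono (Set.image_mono (Set.Icc_subset_Icc_right n.le_succ))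
      (ih fun i => e i.castSucc)
    rw [List.ofFn_succ', List.prod_concat]
    split_ifs
    · have h2 := Subgroup.subset_closure (Set.mem_image_of_mem
        (fun i : ℕ => s ^ i * y * (s ^ i)⁻¹) (Set.right_mem_Icc.2 (Nat.le_add_left 1 n)))
      convert mul_mem h1 h2 using 1
      rw [pow_succ]
      group
    · convert h1 using 1
      rw [pow_succ]
      group

theorem Milnor_coll {J : Type*} [Group J] (s y : J) (n : ℕ) (e e' : Fin n → Bool) (hne : e ≠ e')
    (h : (List.ofFn fun i => s * (if e i then y else 1)).prod =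
      (List.ofFn fun i => s * (if e' i then y else 1)).prod) :
    ∃ m : ℕ, s ^ (m + 1) * y * (s ^ (m + 1))⁻¹ ∈
      Subgroup.closure ((fun i : ℕ => s ^ i * y * (s ^ i)⁻¹) '' Set.Icc 1 m) := by
  induction n with
  | zero => exact absurd (Subsingleton.elim _ _) hne
  | succ n ih =>
    rw [List.ofFn_succ', List.prod_concat, List.ofFn_succ', List.prod_concat] at h
    have h1 := Milnor_prod s y n fun i => e i.castSucc
    have h2 := Milnor_prod s y n fun i => e' i.castSucc
    by_cases hl : e (Fin.last n) = e' (Fin.last n)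
    · rw [hl] at h
      refine ih _ _ (fun hc => hne (funext fun i => ?_)) (mul_right_cancel h)
      induction i using Fin.lastCases with
      | last => exact hl
      | cast i => exact congrFun hc i
    · refine ⟨n, ?_⟩
      generalize (List.ofFn fun i : Fin n => s * (if e i.castSucc then y else 1)).prod = a at *
      generalize (List.ofFn fun i : Fin n => s * (if e' i.castSucc then y else 1)).prod = b at *
      cases h3 : e (Fin.last n) <;> cases h4 : e' (Fin.last n) <;> rw [h3, h4] at h hl
      · exact absurd rfl hl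
      · convert mul_mem (inv_mem h2) h1 using 1
        simp only [Bool.false_eq_true, if_false, if_true, mul_one] at h
        rw [eq_mul_inv_of_mul_eq h, pow_succ]
        group
      · convert mul_mem (inv_mem h1) h2 using 1
        simp only [Bool.false_eq_true, if_false, if_true, mul_one] at h
        rw [eq_mul_inv_of_mul_eq h.symm, pow_succ]
        group
      · exact absurd rfl hl

theorem Milnor_all {J : Type*} [Group J] (s y : J) (m : ℕ)
    (h : s ^ (m + 1) * y * (s ^ (m + 1))⁻¹ ∈
      Subgroup.closure ((fun i : ℕ => s ^ i * y * (s ^ i)⁻¹) '' Set.Icc 1 m)) (i : ℕ) :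
    s ^ (i + 1) * y * (s ^ (i + 1))⁻¹ ∈
      Subgroup.closure ((fun i : ℕ => s ^ i * y * (s ^ i)⁻¹) '' Set.Icc 1 m) := by
  have h0 : ∀ j, j ≤ m → s ^ (j + 1) * y * (s ^ (j + 1))⁻¹ ∈
      Subgroup.closure ((fun i : ℕ => s ^ i * y * (s ^ i)⁻¹) '' Set.Icc 1 m) := fun j hj => by
    rcases hj.eq_or_lt with rfl | hj
    · exact h
    · exact Subgroup.subset_closure ⟨j + 1, ⟨Nat.le_add_left 1 j, hj⟩, rfl⟩
  have h1 : ∀ x ∈ Subgroup.closure ((fun i : ℕ => s ^ i * y * (s ^ i)⁻¹) '' Set.Icc 1 m),
      s * x * s⁻¹ ∈ Subgroup.closure ((fun i : ℕ => s ^ i * y * (s ^ i)⁻¹) '' Set.Icc 1 m) := by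
    intro x hx
    induction hx using Subgroup.closure_induction with
    | mem x hx =>
      obtain ⟨j, hj, rfl⟩ := hx
      convert h0 j hj.2 using 1
      rw [pow_succ']
      group
    | one => simp
    | mul a b _ _ ha hb =>
      convert mul_mem ha hb using 1
      group
    | inv a _ ha =>
      convert inv_mem ha using 1
      group
  induction i with
  | zero => exact h0 0 m.zero_le
  | succ i ih =>
    convert h1 _ ih using 1
    rw [pow_succ' s (i + 1)]
    group

/-- Milnor's lemma: a collision in the semigroup words makes the conjugates finitely generated. -/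
theorem milnor_fg {J : Type*} [Group J] (t y : J)
    (h : ∀ s : J, s = t ∨ s = t⁻¹ → ∃ (n : ℕ) (e e' : Fin n → Bool), e ≠ e' ∧
      (List.ofFn fun i => s * (if e i then y else 1)).prod =
        (List.ofFn fun i => s * (if e' i then y else 1)).prod) :
    (Subgroup.closure (Set.range fun a : ℤ => t ^ a * y * t ^ (-a))).FG := by
  obtain ⟨n1, e1, e1', a1, b1⟩ := h t (Or.inl rfl)
  obtain ⟨n2, e2, e2', a2, b2⟩ := h t⁻¹ (Or.inr rfl)
  obtain ⟨m1, c1⟩ := Milnor_coll t y n1 e1 e1' a1 b1
  obtain ⟨m2, c2⟩ := Milnor_coll t⁻¹ y n2 e2 e2' a2 b2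
  refine (Subgroup.fg_iff _).2 ⟨insert y ((fun i : ℕ => t ^ i * y * (t ^ i)⁻¹) '' Set.Icc 1 m1 ∪
    (fun i : ℕ => t⁻¹ ^ i * y * (t⁻¹ ^ i)⁻¹) '' Set.Icc 1 m2), le_antisymm
      (Subgroup.closure_mono ?_) ((Subgroup.closure_le _).2 ?_),
    (((Set.finite_Icc 1 m1).image _).union ((Set.finite_Icc 1 m2).image _)).insert y⟩
  · rintro _ (rfl | ⟨i, -, rfl⟩ | ⟨i, -, rfl⟩)
    · exact ⟨0, by simp⟩
    · exact ⟨i, by simp⟩
    · exact ⟨-i, by simp⟩
  · rintro _ ⟨a, rfl⟩
    rcases a with (_ | i) | i
    · exact Subgroup.subset_closure (Or.inl (by simp))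
    · refine Subgroup.closure_mono (fun x hx => Or.inr (Or.inl hx)) ?_
      convert Milnor_all t y m1 c1 i using 1
      simp only [Int.ofNat_eq_natCast, zpow_neg, zpow_natCast]
    · refine Subgroup.closure_mono (fun x hx => Or.inr (Or.inr hx)) ?_
      convert Milnor_all t⁻¹ y m2 c2 i using 1
      simp only [zpow_neg, zpow_negSucc, inv_pow]

theorem PG.collide {d : ℕ} (hG : PG K d) (s y : K) : ∃ (n : ℕ) (e e' : Fin n → Bool), e ≠ e' ∧
    (List.ofFn fun i => s * (if e i then y else 1)).prod =
      (List.ofFn fun i => s * (if e' i then y else 1)).prod := by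
  classical
  by_contra hc
  push Not at hc
  obtain ⟨C, hC⟩ := hG {s, s * y}
  have h1 : ∀ (n : ℕ) (e : Fin n → Bool),
      (List.ofFn fun i => s * (if e i then y else 1)).prod ∈ bl {s, s * y} n := fun n => by
    induction n with
    | zero => exact fun e => mem_bl_zero.2 (by simp)
    | succ n ih =>
      intro e
      rw [List.ofFn_succ', List.prod_concat]
      refine mul_mem_bl_succ (ih fun i => e i.castSucc) ?_
      split_ifs <;> simp
  have h2 : ∀ n : ℕ, (1 : ℝ) ≤ 2 * C * (((n + 1 : ℕ) : ℝ) ^ d / 2 ^ (n + 1)) := fun n => by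
    have h3 := card_le_card_of_injOn (s := (univ : Finset (Fin n → Bool))) (t := bl {s, s * y} n)
      (fun e => (List.ofFn fun i => s * (if e i then y else 1)).prod) (fun e _ => h1 n e)
      fun e _ e' _ h => by_contra fun hne => hc n e e' hne h
    simp only [card_univ, Fintype.card_fun, Fintype.card_bool, Fintype.card_fin] at h3
    have h4 : (2 : ℝ) ^ n ≤ C * ((n : ℝ) + 1) ^ d := le_trans (by exact_mod_cast h3) (hC n)
    rw [← mul_div_assoc, le_div_iff₀ (by positivity), pow_succ]
    push_cast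
    linarith
  have h5 := ((tendsto_pow_const_div_const_pow_of_one_lt d (one_lt_two (α := ℝ))).comp
    (Filter.tendsto_add_atTop_nat 1)).const_mul (2 * C)
  have := ge_of_tendsto' h5 h2
  norm_num at this

end Vale.Agent.P188
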