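import Vale.Agent.P188.Poly

/-! Part Gr, file Ext: extension lemmas.
PLAN. `of_finiteIndex`: `virtPolycyclic_iff`, `PC.map K.subtype`, `Subgroup.index_map_subtype`.
`of_comm_quotient`: `K0 ≤ K` of finite index with `PC K0`; `K0.FG` (`PC.fg`) and finite index give `K.FG` (generators of
`K0` and coset representatives; search Mathlib for `fg_of_finiteIndex`-like lemmas or prove it).
`exists_normal_le` gives `K1`. In `Q = H ⧸ K1` the image of `K` is finite and contains `commutatorSet Q`, so
`Subgroup.finiteIndex_center` applies; the centre is f.g. (Schreier instance `fg_of_index_ne_zero`), `PC.of_comm`;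
`PC.comap (QuotientGroup.mk' K1)` with kernel `K1` (`PC.mono`), `Subgroup.index_comap_of_surjective`. -/

namespace Vale.Agent.P188

theorem VirtPolycyclic.of_finiteIndex {H : Type*} [Group H] (K : Subgroup H) [K.FiniteIndex]
    (h : VirtPolycyclic K) : VirtPolycyclic H := by
  obtain ⟨K0, h0, hp⟩ := virtPolycyclic_iff.1 h
  refine virtPolycyclic_iff.2 ⟨K0.map K.subtype, ⟨?_⟩, hp.map _⟩
  rw [Subgroup.index_map_subtype]
  exact mul_ne_zero h0.index_ne_zero Subgroup.FiniteIndex.index_ne_zero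

theorem ext_fg_of_finiteIndex {G : Type*} [Group G] (K : Subgroup G) [K.FiniteIndex]
    (hK : K.FG) : Group.FG G := by
  obtain ⟨S, hS, hfin⟩ := (Subgroup.fg_iff K).1 hK
  have : Finite (G ⧸ K) := Subgroup.finite_quotient_of_finiteIndex
  refine Group.fg_iff.2 ⟨S ∪ Set.range (fun q : G ⧸ K => q.out), ?_,
    hfin.union (Set.finite_range _)⟩
  rw [eq_top_iff]
  intro g _
  obtain ⟨k, hk⟩ := QuotientGroup.mk_out_eq_mul K g
  have h1 : (QuotientGroup.mk g : G ⧸ K).out ∈
      Subgroup.closure (S ∪ Set.range (fun q : G ⧸ K => q.out)) :=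
    Subgroup.subset_closure (Or.inr ⟨_, rfl⟩)
  have h2 : (k : G) ∈ Subgroup.closure (S ∪ Set.range (fun q : G ⧸ K => q.out)) :=
    Subgroup.closure_mono Set.subset_union_left (hS.symm ▸ k.2)
  have h3 := Subgroup.mul_mem _ h1 (Subgroup.inv_mem _ h2)
  rwa [hk, mul_inv_cancel_right] at h3

/-- Extension of a virtually polycyclic normal subgroup by an abelian quotient. -/
theorem VirtPolycyclic.of_comm_quotient {H : Type*} [Group H] [Group.FG H] (K : Subgroup H)
    [K.Normal] (hK : VirtPolycyclic K) (hc : ∀ x y : H, x * y * x⁻¹ * y⁻¹ ∈ K) :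
    VirtPolycyclic H := by
  obtain ⟨K0, h0, hp⟩ := virtPolycyclic_iff.1 hK
  have hKfg : K.FG := (Group.fg_iff_subgroup_fg K).1 (ext_fg_of_finiteIndex K0 hp.fg)
  obtain ⟨K1, hn, hle, hfi⟩ := exists_normal_le K hKfg K0
  have hp1 : PC K1 := (hp.map K.subtype).mono hle
  let f : K →* H ⧸ K1 := (QuotientGroup.mk' K1).comp K.subtype
  have hker : f.ker = K1.subgroupOf K := by
    ext x
    simp [f, Subgroup.mem_subgroupOf]
  have hfin : Finite f.range := by
    apply Nat.finite_of_card_ne_zero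
    rw [← Subgroup.index_ker, hker]
    exact hfi.index_ne_zero
  have hcs : Finite (commutatorSet (H ⧸ K1)) := by
    refine Finite.Set.subset (f.range : Set (H ⧸ K1)) ?_
    rintro _ ⟨a, b, rfl⟩
    obtain ⟨x, rfl⟩ := QuotientGroup.mk_surjective a
    obtain ⟨y, rfl⟩ := QuotientGroup.mk_surjective b
    exact ⟨⟨_, hc x y⟩, by simp [f, commutatorElement_def]⟩
  have hZ : PC (Subgroup.center (H ⧸ K1)) :=
    PC.of_comm ((Group.fg_iff_subgroup_fg _).1 inferInstance)
      fun a _ b hb => Subgroup.mem_center_iff.1 hb a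
  refine virtPolycyclic_iff.2 ⟨(Subgroup.center (H ⧸ K1)).comap (QuotientGroup.mk' K1), ⟨?_⟩,
    PC.comap _ (by rwa [QuotientGroup.ker_mk']) hZ⟩
  rw [Subgroup.index_comap_of_surjective _ (QuotientGroup.mk'_surjective K1)]
  exact Subgroup.FiniteIndex.index_ne_zero

theorem VirtPolycyclic.of_finite (H : Type*) [Group H] [Finite H] : VirtPolycyclic H :=
  virtPolycyclic_iff.2 ⟨⊥, inferInstance, PC.bot⟩

end Vale.Agent.P188
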