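import Vale.Agent.P188.Gr.Milnor

/-! Part Gr, file Ker: kernels of maps onto the integers.
PLAN. `ker_fg`: `φ t = ofAdd 1`, generators `g`, `y g = g * t ^ (-toAdd (φ g))`; `L = ⨆` (finite sup, `Subgroup.FG.sup` or
closure of a finite union) of the Milnor subgroups is normalised by `t`; every element is `l * t ^ n` (closure induction).
`ker_PG`: for `T` in the kernel, `T' = T ∪ {1, t}`; `(x, j) ↦ x * t ^ j` is injective on `bl T n × range (n + 1)` with values in
`bl T' (2 n)`; so `card (bl T n) * (n + 1) ≤ C (2 n + 1) ^ d`; for `d = 0` take `T = {1}`. -/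

namespace Vale.Agent.P188

open Finset

variable {K : Type*} [Group K] {S : Finset K}

theorem PG.ker_fg [Group.FG K] {d : ℕ} (hG : PG K d) (φ : K →* Multiplicative ℤ)
    (hφ : Function.Surjective φ) : φ.ker.FG := by
  obtain ⟨t, ht⟩ := hφ (Multiplicative.ofAdd 1)
  obtain ⟨F, hF⟩ := Group.FG.out (G := K)
  have hz : ∀ a : ℤ, φ (t ^ a) = Multiplicative.ofAdd a := fun a => by
    rw [map_zpow, ht, ← ofAdd_zsmul, smul_eq_mul, mul_one]
  let y : K → K := fun g => g * t ^ (-(φ g).toAdd)
  let U : Set K := ⋃ g ∈ F, Set.range fun a : ℤ => t ^ a * y g * t ^ (-a)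
  have hU : (Subgroup.closure U).FG := by
    simp only [U, Subgroup.closure_iUnion]
    exact Subgroup.FG.biSup_finset F _ fun g _ => milnor_fg t (y g) fun s _ => hG.collide s (y g)
  have hn : ∀ (a : ℤ) x, x ∈ Subgroup.closure U → t ^ a * x * t ^ (-a) ∈ Subgroup.closure U := by
    intro a x hx
    induction hx using Subgroup.closure_induction with
    | mem x hx =>
      obtain ⟨g, hg, b, rfl⟩ := Set.mem_iUnion₂.1 hx
      refine Subgroup.subset_closure (Set.mem_iUnion₂.2 ⟨g, hg, a + b, ?_⟩)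
      simp only
      group
    | one => rw [mul_one, ← zpow_add, add_neg_cancel, zpow_zero]; exact Subgroup.one_mem _
    | mul x z _ _ hx hz =>
      convert Subgroup.mul_mem _ hx hz using 1
      group
    | inv x _ hx =>
      convert Subgroup.inv_mem _ hx using 1
      group
  have hk : ∀ k : K, ∃ n : ℤ, k * t ^ (-n) ∈ Subgroup.closure U := fun k => by
    have hk : k ∈ Subgroup.closure (F : Set K) := hF ▸ Subgroup.mem_top k
    induction hk using Subgroup.closure_induction with
    | mem g hg =>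
      refine ⟨(φ g).toAdd, Subgroup.subset_closure (Set.mem_iUnion₂.2 ⟨g, hg, 0, ?_⟩)⟩
      simp [y]
    | one => exact ⟨0, by simp⟩
    | mul a b _ _ ha hb =>
      obtain ⟨m, ha⟩ := ha
      obtain ⟨n, hb⟩ := hb
      refine ⟨m + n, ?_⟩
      convert Subgroup.mul_mem _ ha (hn m _ hb) using 1
      group
    | inv a _ ha =>
      obtain ⟨m, ha⟩ := ha
      refine ⟨-m, ?_⟩
      convert hn (-m) _ (Subgroup.inv_mem _ ha) using 1
      group
  have hle : Subgroup.closure U ≤ φ.ker := by
    rw [Subgroup.closure_le]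
    intro x hx
    obtain ⟨g, -, b, rfl⟩ := Set.mem_iUnion₂.1 hx
    simp only [y, SetLike.mem_coe, MonoidHom.mem_ker, map_mul, hz]
    simp [mul_comm]
  refine le_antisymm hle (fun k hk0 => ?_) ▸ hU
  obtain ⟨n, hn⟩ := hk k
  have h1 := φ.mem_ker.1 (hle hn)
  rw [map_mul, φ.mem_ker.1 hk0, one_mul, hz] at h1
  have h2 : -n = 0 := by simpa using h1
  simpa [h2] using hn

theorem ker_count {d : ℕ} (hG : PG K d) (φ : K →* Multiplicative ℤ)
    (hφ : Function.Surjective φ) (T : Finset φ.ker) : ∃ C : ℝ, 0 ≤ C ∧ ∀ n : ℕ,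
      ((bl T n).card : ℝ) * (n + 1) ≤ C * ((n : ℝ) + 1) ^ d := by
  classical
  obtain ⟨t, ht⟩ := hφ (Multiplicative.ofAdd 1)
  obtain ⟨C, hC⟩ := hG (insert 1 (insert t (T.map ⟨_, φ.ker.subtype_injective⟩)))
  have hC0 : 0 ≤ C := by
    have := hC 0
    simp only [Nat.cast_zero, zero_add, one_pow, mul_one] at this
    exact (Nat.cast_nonneg _).trans this
  refine ⟨C * 2 ^ d, by positivity, fun n => ?_⟩
  have h1 := card_le_card_of_injOn (s := bl T n ×ˢ range (n + 1))
    (t := bl (insert 1 (insert t (T.map ⟨_, φ.ker.subtype_injective⟩))) (2 * n))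
    (fun x => (x.1 : K) * t ^ x.2) (fun x hx => ?_) fun x _ y _ e => ?_
  · rw [card_product, card_range] at h1
    have h2 := ((Nat.cast_le (α := ℝ)).2 h1).trans (hC _)
    rw [Nat.cast_mul, Nat.cast_succ] at h2
    refine h2.trans ?_
    rw [mul_assoc, ← mul_pow]
    gcongr
    push_cast
    linarith
  · rw [mem_coe, mem_product, mem_range] at hx
    refine bl_mono (mem_insert_self _ _) (by omega : 1 * n + 1 * x.2 ≤ 2 * n) (mul_mem_bl
      (map_mem_bl φ.ker.subtype (fun s hs => mem_bl_one ?_) hx.1) (pow_mem_bl (mem_bl_one ?_) _))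
    · exact mem_insert_of_mem (mem_insert_of_mem (mem_map_of_mem _ hs))
    · exact mem_insert_of_mem (mem_insert_self _ _)
  · have h2 := congrArg φ e
    simp only [map_mul, map_pow, ht, φ.mem_ker.1 x.1.2, φ.mem_ker.1 y.1.2, one_mul] at h2
    have h3 : x.2 = y.2 := by simpa using congrArg Multiplicative.toAdd h2
    refine Prod.ext (Subtype.ext ?_) h3
    simp only [h3] at e
    exact mul_right_cancel e

theorem PG.ker_PG {d : ℕ} (hG : PG K d) (φ : K →* Multiplicative ℤ)
    (hφ : Function.Surjective φ) : ∃ e, d = e + 1 ∧ PG φ.ker e := by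
  rcases d with _ | e
  · obtain ⟨C, -, hC⟩ := ker_count hG φ hφ {1}
    obtain ⟨n, hn⟩ := exists_nat_gt C
    have h1 : (1 : ℝ) ≤ (bl ({1} : Finset φ.ker) n).card := by
      exact_mod_cast card_pos.2 ⟨1, one_mem_bl (mem_singleton_self _) n⟩
    have := hC n
    rw [pow_zero, mul_one] at this
    have h2 : (0 : ℝ) ≤ n := Nat.cast_nonneg n
    nlinarith
  · refine ⟨e, rfl, fun T => ?_⟩
    obtain ⟨C, -, hC⟩ := ker_count hG φ hφ T
    refine ⟨C, fun n => le_of_mul_le_mul_right ?_ (by positivity : (0 : ℝ) < n + 1)⟩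
    rw [mul_assoc, ← pow_succ]
    exact hC n

end Vale.Agent.P188
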