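import Vale.Agent.P188.Gr.Rep
import Vale.Agent.P188.Gr.Ker
import Vale.Agent.P188.Gr.Ext

/-! Part Gr (sub-project): Gromov-lite, Milnor lemma (Gr/Milnor), extension lemmas (Gr/Ext).
Plan: notes/P188_Gr2.md. -/

namespace Vale.Agent.P188

universe u

theorem gromov_PG (d : ℕ) : ∀ {K : Type u} [Group K] [Group.FG K], PG K d → VirtPolycyclic K := by
  induction d using Nat.strong_induction_on with
  | _ d ih =>
    intro K _ _ hG
    rcases finite_or_infinite K with _ | _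
    · exact VirtPolycyclic.of_finite K
    obtain ⟨K0, _, φ, hφ⟩ := hG.exists_virt_surj
    obtain ⟨e, he, h1⟩ := (hG.subgroup K0).ker_PG φ hφ
    have := (Group.fg_iff_subgroup_fg _).2 ((hG.subgroup K0).ker_fg φ hφ)
    refine VirtPolycyclic.of_finiteIndex K0 (VirtPolycyclic.of_comm_quotient φ.ker
      (ih e (by omega) h1) fun x y => ?_)
    simp [MonoidHom.mem_ker]

theorem PG.of_wlen {K : Type*} [Group K] (S : Finset K)
    (hS : Subgroup.closure (S : Set K) = ⊤) (C : ℝ) (d : ℕ)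
    (h : ∀ n : ℕ, (({g | wlen (S : Set K) g ≤ n} : Set K).ncard : ℝ) ≤ C * ((n : ℝ) + 1) ^ d) :
    PG K d := by
  obtain ⟨S', h1, h2, h3, h4⟩ := exists_symm S
  have a1 : ∀ n x, x ∈ bl S' n → ∃ l : List K, l.length ≤ n ∧
      (∀ y ∈ l, y ∈ (S : Set K) ∨ y⁻¹ ∈ (S : Set K)) ∧ l.prod = x := fun n => by
    induction n with
    | zero => exact fun x hx => ⟨[], le_rfl, by simp, (mem_bl_zero.1 hx).symm⟩
    | succ n ih =>
      intro x hx
      obtain ⟨y, hy, s, hs, rfl⟩ := mem_bl_succ.1 hx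
      obtain ⟨l, a, b, rfl⟩ := ih y hy
      rcases h4 s hs with rfl | hs
      · exact ⟨l, by omega, b, (mul_one _).symm⟩
      · exact ⟨l ++ [s], by simpa using a, fun z hz => (List.mem_append.1 hz).elim (b z)
          fun hz => List.mem_singleton.1 hz ▸ hs, by simp⟩
  have a2 : ∀ l : List K, (∀ y ∈ l, y ∈ (S : Set K) ∨ y⁻¹ ∈ (S : Set K)) →
      l.prod ∈ bl S' l.length := fun l => by
    induction l with
    | nil => exact fun _ => mem_bl_zero.2 rfl
    | cons s l ih =>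
      intro hl
      rw [List.prod_cons, List.length_cons, add_comm]
      exact mul_mem_bl (mem_bl_one ((hl s List.mem_cons_self).elim (fun h => h1 h) fun h =>
        inv_inv s ▸ h3 _ (h1 h))) (ih fun y hy => hl y (List.mem_cons_of_mem _ hy))
  have hs : Sym S' := ⟨h2, h3, fun x => mem_bl_of_mem_closure h3
    (Subgroup.closure_mono (Finset.coe_subset.2 h1) (hS ▸ Subgroup.mem_top x))⟩
  have a3 : ∀ n, {g | wlen (S : Set K) g ≤ n} = (bl S' n : Set K) := fun n => by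
    ext x
    refine ⟨fun hx => ?_, fun hx => ?_⟩
    · obtain ⟨m, hm⟩ := hs.gen x
      obtain ⟨l, -, b, c⟩ := a1 m x hm
      obtain ⟨l', a', b', c'⟩ := Nat.sInf_mem (s := {n | ∃ l : List K, l.length = n ∧
        (∀ y ∈ l, y ∈ (S : Set K) ∨ y⁻¹ ∈ (S : Set K)) ∧ l.prod = x}) ⟨_, l, rfl, b, c⟩
      exact bl_mono h2 (a'.trans_le hx) (c' ▸ a2 l' b')
    · obtain ⟨l, a, b, c⟩ := a1 n x hx
      exact (Nat.sInf_le (s := {n | ∃ l : List K, l.length = n ∧
        (∀ y ∈ l, y ∈ (S : Set K) ∨ y⁻¹ ∈ (S : Set K)) ∧ l.prod = x}) ⟨l, rfl, b, c⟩).trans a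
  simp only [a3, Set.ncard_coe_finset] at h
  intro T
  have h5 : 0 ≤ C := by simpa using (Nat.cast_nonneg _).trans (h 0)
  refine ⟨C * ((T.sup (len S') : ℕ) + 1) ^ d, fun n => ?_⟩
  refine (Nat.cast_le.2 (Finset.card_le_card fun x hx => map_mem_bl (MonoidHom.id K)
    (fun s hs' => hs.mem_bl.2 (Finset.le_sup hs')) hx)).trans ((h _).trans ?_)
  rw [mul_assoc, ← mul_pow]
  refine mul_le_mul_of_nonneg_left (pow_le_pow_left₀ (by positivity) ?_ d) h5
  push_cast
  nlinarith [Nat.cast_nonneg (α := ℝ) (T.sup (len S')), Nat.cast_nonneg (α := ℝ) n]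

/-- Gromov-lite: polynomial growth implies virtually polycyclic. -/
theorem gromov_lite {K : Type*} [Group K] (S : Finset K)
    (hS : Subgroup.closure (S : Set K) = ⊤) (C : ℝ) (d : ℕ)
    (h : ∀ n : ℕ, (({g | wlen (S : Set K) g ≤ n} : Set K).ncard : ℝ) ≤ C * ((n : ℝ) + 1) ^ d) :
    VirtPolycyclic K :=
  have : Group.FG K := ⟨⟨S, hS⟩⟩
  gromov_PG d (PG.of_wlen S hS C d h)

end Vale.Agent.P188
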