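import Vale.Agent.P188.Gr.Defs

/-! Part Gr, file Cacc: reverse Poincare inequality.
PLAN. `φ x = ((min b (a + b + 1 - len S x) : ℕ) : ℝ)` equals `b` on `bl S (a + 1)`, vanishes outside `bl S (a + b)`, and
`|φ (x * s) - φ x| ≤ 1` (`len_mul_le`, `le_len_mul`, omega). `Sym.green` for `φ ^ 2 * u` and `u`, and the identity
`(φ y ^ 2 u y - φ x ^ 2 u x) (u y - u x) = (φ y u y - φ x u x) ^ 2 - u x u y (φ y - φ x) ^ 2`;
`u x u y (..) ^ 2 ≤ (u x ^ 2 + u y ^ 2) / 2`; `∑ x ∈ bl S (a + b + 1), u (x * s) ^ 2 ≤ ∑ y ∈ bl S (a + b + 2), u y ^ 2`. -/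

namespace Vale.Agent.P188

open Finset

variable {K : Type*} [Group K] {S : Finset K}

private theorem cacc_pt {p q x y : ℝ} (h : (q - p) ^ 2 ≤ 1) :
    (q * y - p * x) ^ 2 ≤ (q ^ 2 * y - p ^ 2 * x) * (y - x) + (x ^ 2 / 2 + y ^ 2 / 2) := by
  have h1 := mul_le_mul_of_nonneg_left h (show 0 ≤ x ^ 2 / 2 + y ^ 2 / 2 by positivity)
  have h2 := mul_nonneg (sq_nonneg (q - p)) (sq_nonneg (x - y))
  nlinarith

theorem Sym.caccioppoli (hS : Sym S) {u : K → ℝ} (hu : Harm S u) (a b : ℕ) :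
    (b : ℝ) ^ 2 * ∑ x ∈ bl S a, en S u x ≤ S.card * ∑ x ∈ bl S (a + b + 2), u x ^ 2 := by
  let φ : K → ℝ := fun x => ((min b (a + b + 1 - len S x) : ℕ) : ℝ)
  have h0 : ∀ x, x ∉ bl S (a + b) → φ x ^ 2 * u x = 0 := fun x hx => by
    rw [hS.mem_bl] at hx
    have : min b (a + b + 1 - len S x) = 0 := by omega
    simp only [φ, this]
    simp
  have h1 : ∀ x, x ∈ bl S (a + 1) → φ x = b := fun x hx => by
    rw [hS.mem_bl] at hx
    have : min b (a + b + 1 - len S x) = b := by omega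
    simp only [φ, this]
  have h2 : ∀ x, ∀ s ∈ S, (φ (x * s) - φ x) ^ 2 ≤ 1 := fun x s hs => by
    have e1 := hS.len_mul_le x hs
    have e2 := hS.le_len_mul x hs
    have e3 : min b (a + b + 1 - len S x) ≤ min b (a + b + 1 - len S (x * s)) + 1 := by omega
    have e4 : min b (a + b + 1 - len S (x * s)) ≤ min b (a + b + 1 - len S x) + 1 := by omega
    have e5 : φ x ≤ φ (x * s) + 1 := by
      simp only [φ]
      exact_mod_cast e3
    have e6 : φ (x * s) ≤ φ x + 1 := by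
      simp only [φ]
      exact_mod_cast e4
    nlinarith
  have hg := hS.green (φ := fun x => φ x ^ 2 * u x) h0 u
  simp only [hu _, mul_zero, sum_const_zero] at hg
  have h3 : ∀ s ∈ S, ∑ x ∈ bl S (a + b + 1), u (x * s) ^ 2 ≤ ∑ x ∈ bl S (a + b + 2), u x ^ 2 :=
    fun s hs => by
      refine le_trans (sum_map _ ⟨fun x => x * s, mul_left_injective s⟩ fun y => u y ^ 2).ge
        (sum_le_sum_of_subset_of_nonneg (fun y hy => ?_) fun _ _ _ => sq_nonneg _)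
      obtain ⟨x, hx, rfl⟩ := mem_map.1 hy
      exact mul_mem_bl_succ hx hs
  have h4 : ∑ x ∈ bl S (a + b + 1), u x ^ 2 ≤ ∑ x ∈ bl S (a + b + 2), u x ^ 2 :=
    sum_le_sum_of_subset_of_nonneg (bl_mono hS.one (by omega)) fun _ _ _ => sq_nonneg _
  calc (b : ℝ) ^ 2 * ∑ x ∈ bl S a, en S u x
      = ∑ x ∈ bl S a, ∑ s ∈ S, (φ (x * s) * u (x * s) - φ x * u x) ^ 2 := by
        rw [mul_sum]
        refine sum_congr rfl fun x hx => ?_
        rw [en, mul_sum]
        refine sum_congr rfl fun s hs => ?_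
        rw [h1 _ (mul_mem_bl_succ hx hs), h1 _ (bl_mono hS.one a.le_succ hx)]
        ring
    _ ≤ ∑ x ∈ bl S (a + b + 1), ∑ s ∈ S, (φ (x * s) * u (x * s) - φ x * u x) ^ 2 :=
        sum_le_sum_of_subset_of_nonneg (bl_mono hS.one (by omega)) fun _ _ _ =>
          sum_nonneg fun _ _ => sq_nonneg _
    _ ≤ ∑ x ∈ bl S (a + b + 1), ∑ s ∈ S, ((φ (x * s) ^ 2 * u (x * s) - φ x ^ 2 * u x) *
          (u (x * s) - u x) + (u x ^ 2 / 2 + u (x * s) ^ 2 / 2)) :=
        sum_le_sum fun x _ => sum_le_sum fun s hs => cacc_pt (h2 x s hs)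
    _ = ∑ s ∈ S, ((∑ x ∈ bl S (a + b + 1), u x ^ 2) / 2 +
          (∑ x ∈ bl S (a + b + 1), u (x * s) ^ 2) / 2) := by
        simp only [sum_add_distrib (f := fun s => (φ (_ * s) ^ 2 * u (_ * s) - _) * _)]
        rw [sum_add_distrib, hg, zero_add, sum_comm]
        simp only [sum_add_distrib, sum_div]
    _ ≤ ∑ _s ∈ S, ∑ x ∈ bl S (a + b + 2), u x ^ 2 :=
        sum_le_sum fun s hs => by linarith [h3 s hs]
    _ = _ := by rw [sum_const, nsmul_eq_mul]

end Vale.Agent.P188
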