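import Vale.Agent.P188.Gr.Poin

/-! Part Gr, file Cover: covering by balls and the localised Poincare inequality.
PLAN. `cover`: `X ⊆ bl S R` maximal (`Finset.exists_maximal` or largest card) such that `x⁻¹ * x' ∉ bl S (2 * r)` for `x ≠ x'` in `X`.
`pack`: `(x, g) ↦ x * g` is injective on `X ×ˢ bl S r` (`card_le_card_of_injOn`, `card_product`).
`local_poincare`: `∑ y ∈ bl S R, f y ^ 2 ≤ ∑ x ∈ X, ∑ g ∈ bl S (2 r), f (x * g) ^ 2`; `poincare` with radius `2 r`, and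
`card (bl (4 r)) ≤ A * card (bl (2 r))`; `∑ x ∈ X, ∑ g ∈ bl S (6 r), en (x * g) ≤ A * ∑ y ∈ bl S (R + 6 r), en y` since for each `y`
the set `X y = {x ∈ X | x⁻¹ * y ∈ bl S (6 r)}` has `card ≤ A` (`pack` with values in the translate `y * bl S (7 r)`). -/

namespace Vale.Agent.P188

open Finset

variable {K : Type*} [Group K] {S : Finset K}

theorem Sym.cover (hS : Sym S) (R r : ℕ) : ∃ X : Finset K, X ⊆ bl S R ∧
    (∀ x ∈ X, ∀ x' ∈ X, x⁻¹ * x' ∈ bl S (2 * r) → x = x') ∧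
      ∀ y ∈ bl S R, ∃ x ∈ X, x⁻¹ * y ∈ bl S (2 * r) := by
  classical
  obtain ⟨X, hX, hm⟩ := exists_max_image ((bl S R).powerset.filter fun X =>
    ∀ x ∈ X, ∀ x' ∈ X, x⁻¹ * x' ∈ bl S (2 * r) → x = x') card ⟨∅, by simp⟩
  rw [mem_filter, mem_powerset] at hX
  refine ⟨X, hX.1, hX.2, fun y hy => ?_⟩
  by_contra hc
  push Not at hc
  have h1 : y ∉ X := fun h => hc y h (by simpa using one_mem_bl hS.one _)
  have h2 := hm (insert y X) (mem_filter.2 ⟨mem_powerset.2 (insert_subset hy hX.1),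
    fun x hx x' hx' h => ?_⟩)
  · rw [card_insert_of_notMem h1] at h2
    omega
  · rcases mem_insert.1 hx with h3 | h3 <;> rcases mem_insert.1 hx' with h4 | h4
    · exact h3.trans h4.symm
    · exact absurd (by simpa [h3] using inv_mem_bl hS.inv h) (hc x' h4)
    · exact absurd (h4 ▸ h) (hc x h3)
    · exact hX.2 x h3 x' h4 h

theorem Sym.pack (hS : Sym S) {r n : ℕ} {X : Finset K} (y : K)
    (hX : ∀ x ∈ X, ∀ x' ∈ X, x⁻¹ * x' ∈ bl S (2 * r) → x = x')
    (hn : ∀ x ∈ X, y⁻¹ * x ∈ bl S n) : X.card * (bl S r).card ≤ (bl S (n + r)).card := by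
  rw [← card_product]
  refine card_le_card_of_injOn (fun p => y⁻¹ * p.1 * p.2) (fun p hp => ?_) fun p hp q hq h => ?_
  · exact mul_mem_bl (hn _ (mem_product.1 hp).1) (mem_product.1 hp).2
  · have h1 : p.1 * p.2 = q.1 * q.2 := by simpa [mul_assoc] using h
    have h2 : p.1 = q.1 := hX _ (mem_product.1 hp).1 _ (mem_product.1 hq).1 (by
      rw [eq_mul_inv_of_mul_eq h1.symm, mul_assoc, inv_mul_cancel_left, two_mul]
      exact mul_mem_bl (mem_product.1 hp).2 (inv_mem_bl hS.inv (mem_product.1 hq).2))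
    exact Prod.ext h2 (mul_left_cancel (h2 ▸ h1))

theorem cover_surj {α β : Type*} {s : Finset α} {t : Finset β} (φ : α → β)
    (h : ∀ y ∈ t, ∃ x ∈ s, φ x = y) (F : β → ℝ) (hF : ∀ y, 0 ≤ F y) :
    ∑ y ∈ t, F y ≤ ∑ x ∈ s, F (φ x) := by
  classical
  exact (sum_le_sum_of_subset_of_nonneg (fun y hy => mem_image.2 (h y hy))
    fun y _ _ => hF y).trans (sum_image_le_of_nonneg fun y _ => hF y)

theorem Sym.local_poincare (hS : Sym S) (R r : ℕ) {A : ℝ}
    (hA : ((bl S (8 * r)).card : ℝ) ≤ A * (bl S r).card) : ∃ X : Finset K,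
    X.card * (bl S r).card ≤ (bl S (R + r)).card ∧ ∀ f : K → ℝ,
      (∀ x ∈ X, ∑ g ∈ bl S (2 * r), f (x * g) = 0) →
      ∑ y ∈ bl S R, f y ^ 2 ≤ 8 * (r : ℝ) ^ 2 * A ^ 2 * ∑ y ∈ bl S (R + 6 * r), en S f y := by
  classical
  obtain ⟨X, h1, h2, h3⟩ := hS.cover R r
  refine ⟨X, hS.pack 1 h2 fun x hx => by simpa using h1 hx, fun f hf => ?_⟩
  have c0 : ∀ n, (0 : ℝ) < (bl S n).card := fun n => Nat.cast_pos.2 (hS.card_pos n)
  have c1 : ∀ {m n}, m ≤ n → ((bl S m).card : ℝ) ≤ (bl S n).card := fun h =>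
    Nat.cast_le.2 (card_le_card (bl_mono hS.one h))
  have hA0 : 0 ≤ A := ((mul_pos_iff_of_pos_right (c0 r)).1 ((c0 _).trans_le hA)).le
  have a1 : ∑ y ∈ bl S R, f y ^ 2 ≤ ∑ x ∈ X, ∑ g ∈ bl S (2 * r), f (x * g) ^ 2 := by
    rw [← sum_product']
    exact cover_surj (fun p : K × K => p.1 * p.2) (fun y hy =>
      (h3 y hy).elim fun x hx => ⟨(x, x⁻¹ * y), mem_product.2 hx, by simp⟩) _ fun _ => sq_nonneg _
  have a2 : ∀ x ∈ X, ∑ g ∈ bl S (2 * r), f (x * g) ^ 2 ≤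
      8 * (r : ℝ) ^ 2 * A * ∑ g ∈ bl S (6 * r), en S f (x * g) := fun x hx => by
    have h4 := hS.poincare f x (2 * r) (hf x hx)
    have h5 := (c1 (show 2 * (2 * r) ≤ 8 * r by omega)).trans (hA.trans
      (mul_le_mul_of_nonneg_left (c1 (show r ≤ 2 * r by omega)) hA0))
    rw [show 3 * (2 * r) = 6 * r by omega] at h4
    refine le_of_mul_le_mul_left (h4.trans ((mul_le_mul_of_nonneg_right
      (mul_le_mul_of_nonneg_left h5 (by positivity))
      (sum_nonneg fun _ _ => en_nonneg f _)).trans_eq ?_)) (c0 _)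
    push_cast
    ring
  have a3 : ∑ x ∈ X, ∑ g ∈ bl S (6 * r), en S f (x * g) ≤
      ∑ y ∈ bl S (R + 6 * r), A * en S f y := by
    rw [← sum_product', ← sum_fiberwise_of_maps_to (g := fun p : K × K => p.1 * p.2)
      fun p hp => mul_mem_bl (h1 (mem_product.1 hp).1) (mem_product.1 hp).2]
    refine sum_le_sum fun y _ => ?_
    rw [sum_congr rfl fun p hp => congrArg (en S f) (mem_filter.1 hp).2, sum_const, nsmul_eq_mul]
    refine mul_le_mul_of_nonneg_right (le_of_mul_le_mul_right (le_trans ?_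
      ((c1 (show 6 * r + r ≤ 8 * r by omega)).trans hA)) (c0 r)) (en_nonneg f y)
    have h4 := hS.pack (X := X.filter fun x => y⁻¹ * x ∈ bl S (6 * r)) y
      (fun x hx x' hx' => h2 x (mem_filter.1 hx).1 x' (mem_filter.1 hx').1)
      fun x hx => (mem_filter.1 hx).2
    refine le_trans (mul_le_mul_of_nonneg_right (Nat.cast_le.2 (card_le_card_of_injOn Prod.fst
      (fun p hp => ?_) fun p hp q hq h => ?_)) (c0 r).le) (by exact_mod_cast h4)
    · have h5 := mem_filter.1 hp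
      refine mem_filter.2 ⟨(mem_product.1 h5.1).1, ?_⟩
      simpa [← h5.2] using inv_mem_bl hS.inv (mem_product.1 h5.1).2
    · exact Prod.ext h (mul_left_cancel (a := q.1)
        ((h ▸ (mem_filter.1 hp).2).trans (mem_filter.1 hq).2.symm))
  refine a1.trans ((sum_le_sum a2).trans ?_)
  rw [← mul_sum]
  refine (mul_le_mul_of_nonneg_left a3 (by positivity)).trans_eq ?_
  rw [← mul_sum]
  ring

end Vale.Agent.P188
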