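import Vale.Agent.P188.Defs

/-! Part Gr: balls, polynomial growth, Lipschitz harmonic functions. Plan: notes/P188_Gr2.md. -/

namespace Vale.Agent.P188

open Finset
open scoped Pointwise

variable {K : Type*} [Group K] {S T : Finset K} {m n : ℕ} {x y : K}

open Classical in
/-- products of exactly `n` elements of `T` -/
noncomputable def bl (T : Finset K) (n : ℕ) : Finset K := T ^ n

theorem mem_bl_zero : x ∈ bl T 0 ↔ x = 1 := by
  classical
  simp [bl]

theorem mem_bl_add : x ∈ bl T (m + n) ↔ ∃ y ∈ bl T m, ∃ z ∈ bl T n, y * z = x := by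
  classical
  unfold bl
  rw [pow_add, mem_mul]

theorem bl_one : bl T 1 = T := by
  classical
  unfold bl
  rw [pow_one]

theorem mem_bl_one (hx : x ∈ T) : x ∈ bl T 1 := by rwa [bl_one]

theorem mem_bl_succ : x ∈ bl T (n + 1) ↔ ∃ y ∈ bl T n, ∃ s ∈ T, y * s = x := by
  rw [mem_bl_add, bl_one]

theorem mul_mem_bl (hx : x ∈ bl T m) (hy : y ∈ bl T n) : x * y ∈ bl T (m + n) :=
  mem_bl_add.2 ⟨x, hx, y, hy, rfl⟩

theorem mul_mem_bl_succ (hx : x ∈ bl T n) (hy : y ∈ T) : x * y ∈ bl T (n + 1) :=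
  mem_bl_succ.2 ⟨x, hx, y, hy, rfl⟩

theorem one_mem_bl (h : 1 ∈ T) (n : ℕ) : 1 ∈ bl T n := by
  induction n with
  | zero => exact mem_bl_zero.2 rfl
  | succ n ih => exact mem_bl_succ.2 ⟨1, ih, 1, h, one_mul 1⟩

theorem bl_mono (h : 1 ∈ T) (hmn : m ≤ n) : bl T m ⊆ bl T n := fun x hx => by
  obtain ⟨k, rfl⟩ := Nat.exists_eq_add_of_le hmn
  exact mul_one x ▸ mul_mem_bl hx (one_mem_bl h k)

theorem inv_mem_bl (h : ∀ s ∈ T, s⁻¹ ∈ T) (hx : x ∈ bl T n) : x⁻¹ ∈ bl T n := by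
  induction n generalizing x with
  | zero => rwa [mem_bl_zero, inv_eq_one, ← mem_bl_zero (T := T)]
  | succ n ih =>
    obtain ⟨y, hy, s, hs, rfl⟩ := mem_bl_succ.1 hx
    rw [mul_inv_rev, add_comm]
    exact mul_mem_bl (mem_bl_one (h s hs)) (ih hy)

theorem map_mem_bl {K' : Type*} [Group K'] (f : K →* K') {T' : Finset K'} {l : ℕ}
    (h : ∀ s ∈ T, f s ∈ bl T' l) (hx : x ∈ bl T n) : f x ∈ bl T' (l * n) := by
  induction n generalizing x with
  | zero => rw [mem_bl_zero.1 hx, map_one]; exact mem_bl_zero.2 rfl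
  | succ n ih =>
    obtain ⟨y, hy, s, hs, rfl⟩ := mem_bl_succ.1 hx
    rw [map_mul]
    exact mul_mem_bl (ih hy) (h s hs)

theorem pow_mem_bl (hx : x ∈ bl T m) (n : ℕ) : x ^ n ∈ bl T (m * n) := by
  induction n with
  | zero => rw [pow_zero]; exact mem_bl_zero.2 rfl
  | succ n ih => rw [pow_succ]; exact mul_mem_bl ih hx

/-- polynomial growth of degree at most `d` -/
def PG (K : Type*) [Group K] (d : ℕ) : Prop :=
  ∀ T : Finset K, ∃ C : ℝ, ∀ n : ℕ, ((bl T n).card : ℝ) ≤ C * ((n : ℝ) + 1) ^ d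

theorem PG.of_injective {H : Type*} [Group H] {d : ℕ} (h : PG K d) (f : H →* K)
    (hf : Function.Injective f) : PG H d := fun T => by
  obtain ⟨C, hC⟩ := h (T.map ⟨f, hf⟩)
  refine ⟨C, fun n => le_trans (Nat.cast_le.2 (card_le_card_of_injOn f (fun x hx => ?_)
    hf.injOn)) (hC n)⟩
  exact one_mul n ▸ map_mem_bl f (fun s hs => mem_bl_one (mem_map_of_mem _ hs)) hx

theorem PG.subgroup {d : ℕ} (h : PG K d) (H : Subgroup K) : PG H d :=
  h.of_injective H.subtype H.subtype_injective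

/-- a symmetric generating set containing the identity -/
structure Sym (S : Finset K) : Prop where
  one : 1 ∈ S
  inv : ∀ s ∈ S, s⁻¹ ∈ S
  gen : ∀ x, ∃ n, x ∈ bl S n

theorem exists_symm (T : Finset K) : ∃ S : Finset K, T ⊆ S ∧ 1 ∈ S ∧ (∀ s ∈ S, s⁻¹ ∈ S) ∧
    ∀ s ∈ S, s = 1 ∨ s ∈ T ∨ s⁻¹ ∈ T := by
  classical
  refine ⟨insert 1 (T ∪ T⁻¹), fun s hs => by simp [hs], by simp, fun s hs => ?_, fun s hs => ?_⟩
  · simp only [mem_insert, mem_union, mem_inv', inv_inv, inv_eq_one] at hs ⊢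
    tauto
  · simpa only [mem_insert, mem_union, mem_inv'] using hs

theorem mem_bl_of_mem_closure (h : ∀ s ∈ S, s⁻¹ ∈ S) (hx : x ∈ Subgroup.closure (S : Set K)) :
    ∃ n, x ∈ bl S n := by
  induction hx using Subgroup.closure_induction with
  | mem s hs => exact ⟨1, mem_bl_one hs⟩
  | one => exact ⟨0, mem_bl_zero.2 rfl⟩
  | mul a b _ _ ha hb => exact ha.elim fun _ ha => hb.elim fun _ hb => ⟨_, mul_mem_bl ha hb⟩
  | inv a _ ha => exact ha.imp fun _ => inv_mem_bl h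

theorem exists_sym (K : Type*) [Group K] [Group.FG K] : ∃ S : Finset K, Sym S := by
  obtain ⟨T, hT⟩ := Group.FG.out (G := K)
  obtain ⟨S, h1, h2, h3, -⟩ := exists_symm T
  exact ⟨S, h2, h3, fun x => mem_bl_of_mem_closure h3
    (Subgroup.closure_mono (coe_subset.2 h1) (hT ▸ Subgroup.mem_top x))⟩

theorem Sym.card_pos (hS : Sym S) (n : ℕ) : 0 < (bl S n).card :=
  Finset.card_pos.2 ⟨1, one_mem_bl hS.one n⟩

theorem Sym.induction (hS : Sym S) {P : K → Prop} (h1 : P 1)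
    (h : ∀ x, ∀ s ∈ S, P x → P (x * s)) (x : K) : P x := by
  obtain ⟨n, hn⟩ := hS.gen x
  induction n generalizing x with
  | zero => exact mem_bl_zero.1 hn ▸ h1
  | succ n ih =>
    obtain ⟨y, hy, s, hs, rfl⟩ := mem_bl_succ.1 hn
    exact h y s hs (ih y hy)

/-- word length -/
noncomputable def len (S : Finset K) (x : K) : ℕ := sInf {n | x ∈ bl S n}

theorem Sym.mem_bl (hS : Sym S) : x ∈ bl S n ↔ len S x ≤ n :=
  ⟨fun h => Nat.sInf_le h, fun h => bl_mono hS.one h (Nat.sInf_mem (hS.gen x))⟩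

theorem Sym.len_mul_le (hS : Sym S) (x : K) {s : K} (hs : s ∈ S) : len S (x * s) ≤ len S x + 1 :=
  hS.mem_bl.1 (mul_mem_bl_succ (hS.mem_bl.2 le_rfl) hs)

theorem Sym.le_len_mul (hS : Sym S) (x : K) {s : K} (hs : s ∈ S) : len S x ≤ len S (x * s) + 1 := by
  simpa using hS.len_mul_le (x * s) (hS.inv s hs)

theorem Sym.len_one (hS : Sym S) : len S 1 = 0 := Nat.le_zero.1 (hS.mem_bl.1 (mem_bl_zero.2 rfl))

/-- harmonic functions -/
def Harm (S : Finset K) (u : K → ℝ) : Prop := ∀ x, ∑ s ∈ S, (u (x * s) - u x) = 0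

/-- Lipschitz harmonic functions -/
def HL (S : Finset K) : Submodule ℝ (K → ℝ) where
  carrier := {u | Harm S u ∧ ∃ L : ℝ, ∀ x, ∀ s ∈ S, |u (x * s) - u x| ≤ L}
  zero_mem' := ⟨fun x => by simp, 0, fun x s _ => by simp⟩
  add_mem' := by
    rintro u v ⟨hu, L, hL⟩ ⟨hv, M, hM⟩
    refine ⟨fun x => ?_, L + M, fun x s hs => ?_⟩
    · simp only [Pi.add_apply, add_sub_add_comm, sum_add_distrib, hu x, hv x, add_zero]
    · simp only [Pi.add_apply, add_sub_add_comm]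
      exact (abs_add_le _ _).trans (add_le_add (hL x s hs) (hM x s hs))
  smul_mem' := by
    rintro c u ⟨hu, L, hL⟩
    refine ⟨fun x => ?_, |c| * L, fun x s hs => ?_⟩
    · simp only [Pi.smul_apply, smul_eq_mul, ← mul_sub, ← mul_sum, hu x, mul_zero]
    · simp only [Pi.smul_apply, smul_eq_mul, ← mul_sub, abs_mul]
      exact mul_le_mul_of_nonneg_left (hL x s hs) (abs_nonneg c)

theorem mem_HL {u : K → ℝ} :
    u ∈ HL S ↔ Harm S u ∧ ∃ L : ℝ, ∀ x, ∀ s ∈ S, |u (x * s) - u x| ≤ L := Iff.rfl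

theorem shift_mem_HL {u : K → ℝ} (hu : u ∈ HL S) (g : K) : (fun x => u (g * x)) ∈ HL S :=
  ⟨fun x => by simpa only [mul_assoc] using hu.1 (g * x),
    hu.2.imp fun L hL x s hs => by simpa only [mul_assoc] using hL (g * x) s hs⟩

theorem abs_sub_le_of_lip {u : K → ℝ} {L : ℝ} (hL : ∀ x, ∀ s ∈ S, |u (x * s) - u x| ≤ L)
    (hx : x ∈ bl S n) : |u x - u 1| ≤ n * L := by
  induction n generalizing x with
  | zero => simp [mem_bl_zero.1 hx]
  | succ n ih =>
    obtain ⟨y, hy, s, hs, rfl⟩ := mem_bl_succ.1 hx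
    push_cast
    linarith [abs_sub_le (u (y * s)) (u y) (u 1), ih hy, hL y s hs]

/-- energy density -/
def en (S : Finset K) (u : K → ℝ) (x : K) : ℝ := ∑ s ∈ S, (u (x * s) - u x) ^ 2

theorem en_nonneg (u : K → ℝ) (x : K) : 0 ≤ en S u x := sum_nonneg fun _ _ => sq_nonneg _

theorem Sym.swap_sum (hS : Sym S) {φ : K → ℝ} {r : ℕ} (hφ : ∀ x, x ∉ bl S r → φ x = 0)
    (H : K → K → ℝ) : ∑ x ∈ bl S (r + 1), ∑ s ∈ S, φ (x * s) * H x (x * s) =
      ∑ x ∈ bl S (r + 1), ∑ s ∈ S, φ x * H (x * s) x := by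
  rw [sum_comm, sum_comm (s := bl S (r + 1))]
  refine sum_bij' (fun s _ => s⁻¹) (fun s _ => s⁻¹) hS.inv hS.inv (by simp) (by simp)
    fun s hs => ?_
  refine sum_bij_ne_zero (fun x _ _ => x * s) (fun x _ h => ?_) (fun _ _ _ _ _ _ h =>
    mul_right_cancel h) (fun y _ h => ?_) fun x _ _ => by simp
  · by_contra hc
    exact h (by rw [hφ _ fun h' => hc (bl_mono hS.one r.le_succ h'), zero_mul])
  · have hy : y ∈ bl S r := by
      by_contra hc
      exact h (by rw [hφ _ hc, zero_mul])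
    exact ⟨y * s⁻¹, mul_mem_bl_succ hy (hS.inv s hs), by simpa using h, by simp⟩

/-- summation by parts -/
theorem Sym.green (hS : Sym S) {φ : K → ℝ} {r : ℕ} (hφ : ∀ x, x ∉ bl S r → φ x = 0) (G : K → ℝ) :
    ∑ x ∈ bl S (r + 1), ∑ s ∈ S, (φ (x * s) - φ x) * (G (x * s) - G x) =
      -2 * ∑ x ∈ bl S (r + 1), φ x * ∑ s ∈ S, (G (x * s) - G x) := by
  simp only [sub_mul, mul_sum]
  simp only [sum_sub_distrib (f := fun s => φ (_ * s) * (G (_ * s) - G _))]
  rw [sum_sub_distrib, hS.swap_sum hφ fun x y => G y - G x]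
  simp only [← sum_sub_distrib]
  exact sum_congr rfl fun x _ => sum_congr rfl fun s _ => by ring

/-- Gram matrix of a family of functions on a finite set -/
def gm {ι : Type*} (F : Finset K) (v : ι → K → ℝ) : Matrix ι ι ℝ :=
  Matrix.of fun i j => ∑ x ∈ F, v i x * v j x

/-- `h` survives `k` commutator steps with elements of `T` -/
def Surv {A : Type*} [Monoid A] (ρ : K →* A) (T : Finset K) : ℕ → K → Prop
  | 0, _ => True
  | k + 1, h => ρ h ≠ 1 ∧ ∃ t ∈ T, Surv ρ T k (t * h * t⁻¹ * h⁻¹)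

end Vale.Agent.P188
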