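import Vale.Agent.P188.Defs

/-! Part Gr, file Det: determinants of quadratic forms.
PLAN. `sim_diag`: `B = Cᴴ * C` with `C` invertible (`Matrix.PosDef` / `CStarAlgebra.nonneg_iff_eq_star_mul_self`, or `CFC.sqrt`, or
the spectral theorem), `A' = C⁻¹ᵀ * A * C⁻¹` is Hermitian, `A' = U * diagonal l * star U` (`IsHermitian.spectral_theorem`), `M = C⁻¹ * U`.
`det_le_of_form`: for `c = M *ᵥ y` the forms are `∑ l i * y i ^ 2` and `∑ y i ^ 2`, so `0 ≤ l i ≤ 1`. `I = {i | ε < l i}`; the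
space of `M *ᵥ y` with `y` supported in `I` has dimension `card I` and meets `W` in `0`
(`Submodule.finrank_add_finrank_le_of_disjoint`), so `card I ≤ N`; `∏ l i ≤ ε ^ (card ι - card I)`;
`det M ^ 2 * det A = ∏ l i`, `det M ^ 2 * det B = 1`. -/

namespace Vale.Agent.P188

open Finset Matrix

variable {ι : Type*} [Fintype ι] [DecidableEq ι]

open scoped MatrixOrder in
theorem det_sqrt {B : Matrix ι ι ℝ} (hB : B.PosDef) :
    ∃ C : Matrix ι ι ℝ, IsUnit C.det ∧ B = Cᵀ * C := by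
  obtain ⟨C, hC⟩ := CStarAlgebra.nonneg_iff_eq_star_mul_self.1 hB.posSemidef.nonneg
  rw [star_eq_conjTranspose, conjTranspose_eq_transpose_of_trivial] at hC
  refine ⟨C, isUnit_iff_ne_zero.2 fun h => hB.det_pos.ne' ?_, hC⟩
  rw [hC, det_mul, h, mul_zero]

omit [DecidableEq ι] in
theorem det_form (M A : Matrix ι ι ℝ) (y : ι → ℝ) :
    (M *ᵥ y) ⬝ᵥ A *ᵥ (M *ᵥ y) = y ⬝ᵥ (Mᵀ * A * M) *ᵥ y := by
  rw [← mulVec_mulVec, ← mulVec_mulVec, dotProduct_mulVec y, vecMul_transpose]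

theorem sim_diag {A B : Matrix ι ι ℝ} (hA : A.IsHermitian) (hB : B.PosDef) :
    ∃ (M : Matrix ι ι ℝ) (l : ι → ℝ), Mᵀ * B * M = 1 ∧ Mᵀ * A * M = diagonal l := by
  obtain ⟨C, hC, rfl⟩ := det_sqrt hB
  have h1 := isHermitian_conjTranspose_mul_mul C⁻¹ hA
  have h2 := h1.conjStarAlgAut_star_eigenvectorUnitary
  have h3 := Unitary.coe_star_mul_self h1.eigenvectorUnitary
  have h4 := mul_nonsing_inv C hC
  have h5 : C⁻¹ᵀ * Cᵀ = 1 := by rw [← transpose_mul, h4, transpose_one]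
  generalize h1.eigenvectorUnitary = U at h2 h3
  simp only [Unitary.conjStarAlgAut_star_apply, star_eq_conjTranspose,
    conjTranspose_eq_transpose_of_trivial] at h2 h3
  refine ⟨C⁻¹ * U, _, ?_, Eq.trans ?_ h2⟩
  · rw [transpose_mul, ← h3]
    simp only [Matrix.mul_assoc]
    rw [← Matrix.mul_assoc C, h4, Matrix.one_mul, ← Matrix.mul_assoc C⁻¹ᵀ, h5, Matrix.one_mul]
  · simp only [transpose_mul, Matrix.mul_assoc]

theorem det_le_of_form {A B : Matrix ι ι ℝ} (hA : A.PosSemidef) (hB : B.PosDef)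
    (hle : ∀ c, c ⬝ᵥ A *ᵥ c ≤ c ⬝ᵥ B *ᵥ c) (W : Submodule ℝ (ι → ℝ)) {N : ℕ}
    (hN : Fintype.card ι ≤ Module.finrank ℝ W + N) {ε : ℝ} (h0 : 0 ≤ ε) (h1 : ε ≤ 1)
    (hW : ∀ c ∈ W, c ⬝ᵥ A *ᵥ c ≤ ε * (c ⬝ᵥ B *ᵥ c)) :
    A.det ≤ ε ^ (Fintype.card ι - N) * B.det := by
  obtain ⟨M, l, hM, hl⟩ := sim_diag hA.1 hB
  have a1 : ∀ y, (M *ᵥ y) ⬝ᵥ A *ᵥ (M *ᵥ y) = ∑ i, l i * y i ^ 2 := fun y => by
    rw [det_form, hl]
    exact sum_congr rfl fun i _ => by rw [mulVec_diagonal]; ring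
  have a2 : ∀ y, (M *ᵥ y) ⬝ᵥ B *ᵥ (M *ᵥ y) = ∑ i, y i ^ 2 := fun y => by
    rw [det_form, hM, one_mulVec]
    exact sum_congr rfl fun i _ => (sq _).symm
  have a3 : ∀ i, 0 ≤ l i ∧ l i ≤ 1 := fun i => by
    have h2 := hA.dotProduct_mulVec_nonneg (M *ᵥ Pi.single i 1)
    have h3 := hle (M *ᵥ Pi.single i 1)
    rw [star_trivial, a1] at h2
    rw [a1, a2] at h3
    simp only [Pi.single_apply, ite_pow, one_pow, zero_pow two_ne_zero, mul_ite, mul_one, mul_zero,
      sum_ite_eq', mem_univ, if_true] at h2 h3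
    exact ⟨h2, h3⟩
  have a4 := congrArg det hM
  have a5 := congrArg det hl
  rw [det_mul, det_mul, det_transpose, det_one] at a4
  rw [det_mul, det_mul, det_transpose, det_diagonal] at a5
  have a6 : M.det ≠ 0 := right_ne_zero_of_mul_eq_one a4
  have a7 : Function.Injective M.mulVecLin :=
    mulVec_injective_iff_isUnit.2 ((isUnit_iff_isUnit_det M).2 a6.isUnit)
  have a8 := Submodule.finrank_add_finrank_le_of_disjoint
    (s := (Pi.spanSubset ℝ (univ.filter fun i => ε < l i : Finset ι)).map M.mulVecLin) (t := W)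
    (Submodule.disjoint_def.2 ?_)
  · rw [← (Submodule.equivMapOfInjective _ a7 _).finrank_eq, Pi.dim_spanSubset,
      Set.ncard_coe_finset, Module.finrank_fintype_fun_eq_card] at a8
    have a9 : ∏ i, l i ≤ ε ^ (Fintype.card ι - N) := by
      rw [← prod_filter_mul_prod_filter_not univ fun i => ε < l i]
      refine (mul_le_of_le_one_left (prod_nonneg fun i _ => (a3 i).1)
        (prod_le_one (fun i _ => (a3 i).1) fun i _ => (a3 i).2)).trans
        ((prod_le_prod (fun i _ => (a3 i).1) fun i hi => not_lt.1 (mem_filter.1 hi).2).trans ?_)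
      rw [prod_const]
      refine pow_le_pow_of_le_one h0 h1 ?_
      have := card_filter_add_card_filter_not (s := univ) fun i => ε < l i
      rw [card_univ] at this
      omega
    have h2 : A.det = (∏ i, l i) * B.det := by
      linear_combination B.det * a5 - A.det * a4
    rw [h2]
    exact mul_le_mul_of_nonneg_right a9 hB.det_pos.le
  · rintro _ ⟨y, hy, rfl⟩ hc
    have h2 := hW _ hc
    have h3 : ∀ i, 0 ≤ (l i - ε) * y i ^ 2 := fun i => by
      by_cases h : ε < l i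
      · exact mul_nonneg (sub_pos.2 h).le (sq_nonneg _)
      · rw [Pi.mem_spanSubset_iff.1 hy i (by simpa using h)]
        simp
    rw [mulVecLin_apply, a1, a2, mul_sum, ← sub_nonpos, ← sum_sub_distrib] at h2
    simp only [← sub_mul] at h2
    have h4 := (sum_eq_zero_iff_of_nonneg fun i _ => h3 i).1
      (h2.antisymm (sum_nonneg fun i _ => h3 i))
    have h5 : y = 0 := funext fun i => by
      by_cases h : ε < l i
      · simpa [(sub_pos.2 h).ne'] using h4 i (mem_univ i)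
      · exact Pi.mem_spanSubset_iff.1 hy i (by simpa using h)
    rw [h5, map_zero]

end Vale.Agent.P188
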