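import Vale.Agent.P188.Gr.Defs

/-! Part Gr, file ExA: bounded functions with small Laplacian and a large gradient.
PLAN. `q 0 = indicator of 1`, `q (m + 1) x = (∑ s ∈ S, q m (x * s)) / card S`; `q m ≥ 0`, `∑ z ∈ F, q m z ≤ 1` for every finite
`F` (`sum_image`/`sum_map` along `z ↦ z * s`, also along `y ↦ y⁻¹ * x`), `q m` vanishes outside `bl S m`. `G n = ∑ m ∈ range n, q m`,
`∑ s, (G n (x * s) - G n x) = card S * (q n x - q 0 x)`. Suppose the claim fails for `M`. For finite `F`, `s ∈ S` take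
`u x = (2 card S)⁻¹ ∑ y ∈ F, sign y * G n (y * x)`, `sign y = ±1` the sign of `G n (y * s) - G n y`; at `x = 1` this gives
(1) `∑ y ∈ F, |G n (y * s) - G n y| ≤ M' = 2 card S * M`. (2) `path_le` and a point outside `bl S n` give
`|G n y| ≤ 2 card S * M'` for all `y`, `n`. (3) So for every `R` some `m` has `∑ z ∈ bl S R, q m z ≤ 1 / 2`.
(4) `Sym.green` with `φ x = max (R - len S x) 0` (values in `[0, R]`, `φ 1 = R`, gradient at most `1`) and `G m`:
`2 card S (R - R / 2) ≤ card S * M'`, false for `R > M'`. -/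

namespace Vale.Agent.P188

open Finset

variable {K : Type*} [Group K] {S : Finset K}

open Classical in
/-- transition probabilities of the simple random walk -/
noncomputable def exq (S : Finset K) : ℕ → K → ℝ
  | 0, x => if x = 1 then 1 else 0
  | m + 1, x => (∑ s ∈ S, exq S m (x * s)) / S.card

/-- truncated Green function -/
noncomputable def exG (S : Finset K) (n : ℕ) (x : K) : ℝ := ∑ m ∈ range n, exq S m x

theorem exq_nonneg (m : ℕ) (x : K) : 0 ≤ exq S m x := by
  induction m generalizing x with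
  | zero => unfold exq; split_ifs <;> norm_num
  | succ m ih => exact div_nonneg (sum_nonneg fun _ _ => ih _) (Nat.cast_nonneg _)

theorem Sym.exa_pos (hS : Sym S) : (0 : ℝ) < S.card :=
  Nat.cast_pos.2 (Finset.card_pos.2 ⟨1, hS.one⟩)

theorem Sym.exq_sum (hS : Sym S) (m : ℕ) (F : Finset K) (b : K) :
    ∑ z ∈ F, exq S m (z * b) ≤ 1 := by
  induction m generalizing b with
  | zero =>
    classical
    simp only [exq, mul_eq_one_iff_eq_inv, sum_ite_eq']
    split_ifs <;> norm_num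
  | succ m ih =>
    simp only [exq, mul_assoc]
    rw [← sum_div, div_le_one hS.exa_pos, sum_comm]
    simpa using sum_le_sum fun s (_ : s ∈ S) => ih (b * s)

theorem Sym.exq_zero (hS : Sym S) (m : ℕ) {x : K} (hx : x ∉ bl S m) : exq S m x = 0 := by
  induction m generalizing x with
  | zero => exact if_neg fun h => hx (mem_bl_zero.2 h)
  | succ m ih =>
    rw [exq, sum_eq_zero fun s hs => ih fun h => hx ?_, zero_div]
    simpa using mul_mem_bl_succ h (hS.inv s hs)

theorem Sym.exG_lap (hS : Sym S) (n : ℕ) (x : K) :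
    ∑ s ∈ S, (exG S n (x * s) - exG S n x) = S.card * (exq S n x - exq S 0 x) := by
  simp only [exG, ← sum_sub_distrib]
  rw [sum_comm, ← sum_range_sub (fun m => exq S m x), mul_sum]
  refine sum_congr rfl fun m _ => ?_
  rw [sum_sub_distrib, sum_const, nsmul_eq_mul, exq, mul_sub, mul_div_cancel₀ _ hS.exa_pos.ne']

theorem Sym.exa_dual (hS : Sym S) {M : ℝ} (h : ∀ u : K → ℝ, (∃ B, ∀ x, |u x| ≤ B) →
    (∀ x, |∑ s ∈ S, (u (x * s) - u x)| ≤ 1) → ∀ x, ∀ s ∈ S, |u (x * s) - u x| < M) (n : ℕ)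
    (F : Finset K) {s : K} (hs : s ∈ S) :
    ∑ y ∈ F, |exG S n (y * s) - exG S n y| ≤ 2 * S.card * M := by
  have h0 := hS.exa_pos
  obtain ⟨e, h1, h2⟩ : ∃ e : K → ℝ, (∀ y, |e y| = 1) ∧ ∀ y,
      e y * (exG S n (y * s) - exG S n y) = |exG S n (y * s) - exG S n y| := by
    refine ⟨fun y => if 0 ≤ exG S n (y * s) - exG S n y then 1 else -1, fun y => ?_, fun y => ?_⟩
    · dsimp only
      split_ifs <;> simp
    · dsimp only
      split_ifs with h
      · rw [one_mul, abs_of_nonneg h]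
      · rw [neg_one_mul, abs_of_neg (not_le.1 h)]
  have h3 := h (fun x => (∑ y ∈ F, e y * exG S n (y * x)) / (2 * S.card))
    ⟨(∑ _y ∈ F, (n : ℝ)) / (2 * S.card), fun x => ?_⟩ (fun x => ?_) 1 s hs
  · simp only [← sub_div, ← sum_sub_distrib, ← mul_sub, one_mul, mul_one, h2] at h3
    exact (mul_comm M _ ▸ (div_lt_iff₀ (by positivity)).1 (lt_of_abs_lt h3)).le
  · rw [abs_div, abs_of_pos (a := 2 * (S.card : ℝ)) (by positivity)]
    refine div_le_div_of_nonneg_right ((abs_sum_le_sum_abs _ _).trans (sum_le_sum fun y _ => ?_))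
      (by positivity)
    rw [abs_mul, h1, one_mul, exG, abs_of_nonneg (sum_nonneg fun m _ => exq_nonneg m _)]
    simpa using sum_le_sum fun m (_ : m ∈ range n) => hS.exq_sum m {y} x
  · simp only [← sub_div, ← sum_sub_distrib, ← mul_sub, ← sum_div]
    rw [sum_comm, abs_div, abs_of_pos (a := 2 * (S.card : ℝ)) (by positivity),
      div_le_one (by positivity)]
    simp only [← mul_sum, ← mul_assoc, hS.exG_lap]
    refine (abs_sum_le_sum_abs _ _).trans ((sum_le_sum (g := fun y =>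
      S.card * (exq S n (y * x) + exq S 0 (y * x))) fun y _ => ?_).trans ?_)
    · rw [mul_assoc, abs_mul, h1, one_mul, abs_mul, abs_of_pos h0]
      refine mul_le_mul_of_nonneg_left (abs_le.2 ⟨?_, ?_⟩) h0.le <;>
        linarith [exq_nonneg (S := S) n (y * x), exq_nonneg (S := S) 0 (y * x)]
    · rw [← mul_sum, sum_add_distrib]
      nlinarith [hS.exq_sum n F x, hS.exq_sum 0 F x]

theorem Sym.path_le (hS : Sym S) (G : K → ℝ) (r : ℕ) {y : K} (hy : y ∈ bl S (r + 1)) :
    |G y - G 1| ≤ ∑ z ∈ bl S r, ∑ s ∈ S, |G (z * s) - G z| := by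
  classical
  have h0 : ∀ z, 0 ≤ ∑ s ∈ S, |G (z * s) - G z| := fun z => sum_nonneg fun _ _ => abs_nonneg _
  have h1 : ∀ z, ∀ s ∈ S, |G (z * s) - G z| ≤ ∑ s ∈ S, |G (z * s) - G z| := fun z s hs =>
    single_le_sum (f := fun s => |G (z * s) - G z|) (fun _ _ => abs_nonneg _) hs
  induction r generalizing y with
  | zero =>
    obtain ⟨z, hz, s, hs, rfl⟩ := mem_bl_succ.1 hy
    obtain rfl := mem_bl_zero.1 hz
    exact (h1 1 s hs).trans (single_le_sum (f := fun z => ∑ s ∈ S, |G (z * s) - G z|)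
      (fun z _ => h0 z) hz)
  | succ r ih =>
    obtain ⟨z, hz, s, hs, rfl⟩ := mem_bl_succ.1 hy
    have h2 := bl_mono hS.one r.le_succ
    by_cases h : z ∈ bl S r
    · exact (ih (mul_mem_bl_succ h hs)).trans
        (sum_le_sum_of_subset_of_nonneg h2 fun z _ _ => h0 z)
    · refine le_trans ?_ (sum_le_sum_of_subset_of_nonneg (insert_subset hz h2) fun z _ _ => h0 z)
      rw [sum_insert h]
      linarith [abs_sub_le (G (z * s)) (G z) (G 1), ih hz, h1 z s hs]

theorem Sym.exists_big_grad [Infinite K] (hS : Sym S) (M : ℝ) : ∃ u : K → ℝ,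
    (∃ B, ∀ x, |u x| ≤ B) ∧ (∀ x, |∑ s ∈ S, (u (x * s) - u x)| ≤ 1) ∧
      ∃ x, ∃ s ∈ S, M ≤ |u (x * s) - u x| := by
  by_contra hc
  push Not at hc
  have h0 := hS.exa_pos
  have h1 := fun n F s hs => hS.exa_dual hc n F (s := s) hs
  generalize 2 * S.card * M = L at h1
  have h2 : ∀ n F, ∑ z ∈ F, ∑ s ∈ S, |exG S n (z * s) - exG S n z| ≤ S.card * L := fun n F => by
    rw [sum_comm]
    simpa using sum_le_sum fun s (hs : s ∈ S) => h1 n F s hs
  have h3 : ∀ n y, |exG S n y - exG S n 1| ≤ S.card * L := fun n y => by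
    obtain ⟨r, hr⟩ := hS.gen y
    exact (hS.path_le _ r (bl_mono hS.one r.le_succ hr)).trans (h2 n _)
  have h4 : ∀ n y, exG S n y ≤ 2 * (S.card * L) := fun n y => by
    obtain ⟨y0, hy⟩ := Infinite.exists_notMem_finset (bl S n)
    have h5 : exG S n y0 = 0 := sum_eq_zero fun m hm =>
      hS.exq_zero m fun h => hy (bl_mono hS.one (mem_range.1 hm).le h)
    have h6 := abs_le.1 (h3 n y0)
    linarith [(abs_le.1 (h3 n y)).2]
  obtain ⟨R, hR⟩ := exists_nat_gt L
  obtain ⟨m, hm⟩ : ∃ m, ∑ z ∈ bl S (R + 1), exq S m z ≤ 1 / 2 := by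
    by_contra hm
    push Not at hm
    obtain ⟨n, hn⟩ := exists_nat_gt (2 * ∑ _z ∈ bl S (R + 1), 2 * (S.card * L))
    have h5 := sum_le_sum fun z (_ : z ∈ bl S (R + 1)) => h4 n z
    have h6 := sum_le_sum fun m (_ : m ∈ range n) => (hm m).le
    rw [sum_comm, sum_const, card_range, nsmul_eq_mul] at h6
    unfold exG at h5
    linarith
  have h5 := hS.green (φ := fun x => ((R - len S x : ℕ) : ℝ)) (r := R) (fun x hx => by
    rw [hS.mem_bl, not_le] at hx
    rw [Nat.sub_eq_zero_of_le hx.le, Nat.cast_zero]) (exG S m)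
  have h6 : ∑ x ∈ bl S (R + 1), ∑ s ∈ S, (((R - len S (x * s) : ℕ) : ℝ) - (R - len S x : ℕ)) *
      (exG S m (x * s) - exG S m x) ≤ S.card * L := by
    refine le_trans (sum_le_sum fun x _ => sum_le_sum fun s hs => (le_abs_self _).trans ?_) (h2 m _)
    rw [abs_mul]
    refine mul_le_of_le_one_left (abs_nonneg _) (abs_le.2 ⟨?_, ?_⟩)
    · have : R - len S x ≤ R - len S (x * s) + 1 := by have := hS.len_mul_le x hs; omega
      linarith [(by exact_mod_cast this : ((R - len S x : ℕ) : ℝ) ≤ (R - len S (x * s) : ℕ) + 1)]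
    · have : R - len S (x * s) ≤ R - len S x + 1 := by have := hS.le_len_mul x hs; omega
      linarith [(by exact_mod_cast this : ((R - len S (x * s) : ℕ) : ℝ) ≤ (R - len S x : ℕ) + 1)]
  have h7 : ∑ x ∈ bl S (R + 1), ((R - len S x : ℕ) : ℝ) * exq S 0 x = R := by
    classical
    simp [exq, one_mem_bl hS.one, hS.len_one]
  have h8 : ∑ x ∈ bl S (R + 1), ((R - len S x : ℕ) : ℝ) * exq S m x ≤
      R * ∑ x ∈ bl S (R + 1), exq S m x := by
    rw [mul_sum]
    exact sum_le_sum fun x _ => mul_le_mul_of_nonneg_right (Nat.cast_le.2 (Nat.sub_le _ _))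
      (exq_nonneg m x)
  simp only [hS.exG_lap, mul_left_comm _ (S.card : ℝ), ← mul_sum, mul_sub, sum_sub_distrib] at h5
  simp only [mul_sub, sum_sub_distrib] at h6
  rw [h5, h7] at h6
  have h9 := mul_le_mul_of_nonneg_left hm (Nat.cast_nonneg (α := ℝ) R)
  nlinarith [mul_le_mul_of_nonneg_left (h8.trans h9) h0.le, mul_lt_mul_of_pos_left hR h0]

end Vale.Agent.P188
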