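import Vale.Agent.P188.Gr.ExA

/-! Part Gr, file ExB: a nonconstant Lipschitz harmonic function; maximum principle.
PLAN. `exists_norm`: let `Λ` be the supremum of the gradients of `u` from `exists_big_grad` (`M = k + 1`; bounded, `Λ ≥ k + 1`),
pick an edge `(x0, s0)` with gradient `> Λ / 2` (`exists_lt_of_lt_csSup`/`exists_lt_of_lt_ciSup`), `w x = (u (x0 * x) - u x0) / Λ`.
`exists_HL`: `U = hyperfilter ℕ ≤ atTop`; `|w k x| ≤ len` (`abs_sub_le_of_lip`), pointwise limits along `U`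
(`isCompact_Icc.ultrafilter_le_nhds`), `tendsto_finsetSum`, `le_of_tendsto'`; `1 / 2 ≤ ∑ s ∈ S, |u s|`.
`const_of_finite`: a maximum point `x0`; all terms of the harmonic sum are `≤ 0`, so neighbours of maximum points are maximum
points; `Sym.induction` for `P x := u (x0 * x) = u x0`.
`stab_infinite`: `u` takes finitely many values (it factors through the finitely many right cosets; use `x ↦ (x⁻¹ : K ⧸ N)`). -/

namespace Vale.Agent.P188

open Finset

variable {K : Type*} [Group K] {S : Finset K}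

theorem Sym.exists_norm [Infinite K] (hS : Sym S) (k : ℕ) : ∃ w : K → ℝ, w 1 = 0 ∧
    (∀ x, ∀ s ∈ S, |w (x * s) - w x| ≤ 1) ∧ (∀ x, |∑ s ∈ S, (w (x * s) - w x)| ≤ 1 / (k + 1)) ∧
      ∃ s ∈ S, 1 / 2 ≤ |w s| := by
  obtain ⟨u, ⟨B, hB⟩, hl, x1, s1, hs1, h1⟩ := hS.exists_big_grad ((k : ℝ) + 1)
  obtain ⟨T, hT⟩ : ∃ T : Set ℝ, ∀ t, t ∈ T ↔ ∃ x, ∃ s ∈ S, t = |u (x * s) - u x| :=
    ⟨{t | ∃ x, ∃ s ∈ S, t = |u (x * s) - u x|}, fun _ => Iff.rfl⟩
  have hb : BddAbove T := ⟨B + B, fun t ht => by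
    obtain ⟨x, s, -, rfl⟩ := (hT t).1 ht
    exact (abs_sub _ _).trans (add_le_add (hB _) (hB _))⟩
  have h2 : ∀ x, ∀ s ∈ S, |u (x * s) - u x| ≤ sSup T := fun x s hs =>
    le_csSup hb ((hT _).2 ⟨x, s, hs, rfl⟩)
  have h3 : (k : ℝ) + 1 ≤ sSup T := h1.trans (h2 x1 s1 hs1)
  have hk : (0 : ℝ) < (k : ℝ) + 1 := by positivity
  have h0 : 0 < sSup T := hk.trans_le h3
  obtain ⟨t, ht, h4⟩ := exists_lt_of_lt_csSup (s := T) ⟨_, (hT _).2 ⟨x1, s1, hs1, rfl⟩⟩
    (half_lt_self h0)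
  obtain ⟨x0, s0, hs0, rfl⟩ := (hT t).1 ht
  refine ⟨fun x => (u (x0 * x) - u x0) / sSup T, by simp, fun x s hs => ?_, fun x => ?_,
    s0, hs0, ?_⟩
  · rw [← sub_div, sub_sub_sub_cancel_right, abs_div, abs_of_pos h0, div_le_one h0, ← mul_assoc]
    exact h2 _ s hs
  · simp only [← sub_div, sub_sub_sub_cancel_right, ← sum_div, ← mul_assoc]
    rw [abs_div, abs_of_pos h0]
    exact div_le_div₀ zero_le_one (hl _) hk h3
  · rw [abs_div, abs_of_pos h0, le_div_iff₀ h0]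
    linarith

theorem Sym.exists_HL [Infinite K] (hS : Sym S) : ∃ u ∈ HL S, ∃ x, u x ≠ u 1 := by
  choose w w1 w2 w3 w4 using hS.exists_norm
  have hU : (Filter.hyperfilter ℕ : Filter ℕ) ≤ Filter.atTop :=
    Nat.cofinite_eq_atTop ▸ Filter.hyperfilter_le_cofinite
  have hlim : ∀ x, ∃ l, Filter.Tendsto (fun k => w k x) (Filter.hyperfilter ℕ) (nhds l) :=
    fun x => by
      obtain ⟨n, hn⟩ := hS.gen x
      obtain ⟨l, -, hl⟩ := (isCompact_Icc (a := -(n : ℝ)) (b := n)).ultrafilter_le_nhds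
        ((Filter.hyperfilter ℕ).map fun k => w k x) (by
          rw [Ultrafilter.coe_map, Filter.le_principal_iff, Filter.mem_map]
          refine Filter.univ_mem' fun k => ?_
          have := abs_sub_le_of_lip (w2 k) hn
          rw [w1, sub_zero, mul_one] at this
          exact abs_le.1 this)
      exact ⟨l, hl⟩
  choose u hu using hlim
  refine ⟨u, ⟨fun x => ?_, 1, fun x s hs => ?_⟩, ?_⟩
  · refine tendsto_nhds_unique (tendsto_finsetSum S fun s _ => (hu (x * s)).sub (hu x)) ?_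
    exact squeeze_zero_norm (fun k => w3 k x)
      (tendsto_one_div_add_atTop_nhds_zero_nat.mono_left hU)
  · exact le_of_tendsto' ((hu (x * s)).sub (hu x)).abs fun k => w2 k x s hs
  · by_contra hc
    push Not at hc
    have h1 : u 1 = 0 := tendsto_nhds_unique (hu 1) (by simp only [w1]; exact tendsto_const_nhds)
    have h2 : 1 / 2 ≤ ∑ s ∈ S, |u s| :=
      ge_of_tendsto' (tendsto_finsetSum S fun s _ => (hu s).abs) fun k => by
        obtain ⟨s, hs, h⟩ := w4 k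
        exact h.trans (single_le_sum (f := fun s => |w k s|) (fun _ _ => abs_nonneg _) hs)
    simp only [hc, h1, abs_zero, sum_const_zero] at h2
    norm_num at h2

theorem Sym.const_of_finite (hS : Sym S) {u : K → ℝ} (hu : Harm S u)
    (hf : (Set.range u).Finite) (x : K) : u x = u 1 := by
  obtain ⟨_, ⟨x0, rfl⟩, h0⟩ := Set.exists_max_image (Set.range u) id hf (Set.range_nonempty u)
  have h1 : ∀ y, u y ≤ u x0 := fun y => h0 _ ⟨y, rfl⟩
  have h2 : ∀ y, u (x0 * y) = u x0 := hS.induction (by rw [mul_one]) fun y s hs hy => by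
    have := (sum_eq_zero_iff_of_nonpos fun s _ => sub_nonpos.2 (hy ▸ h1 (x0 * y * s))).1
      (hu (x0 * y)) s hs
    rw [← mul_assoc, sub_eq_zero.1 this, hy]
  have h3 := h2 (x0⁻¹ * x)
  have h4 := h2 (x0⁻¹ * 1)
  rw [mul_inv_cancel_left] at h3 h4
  rw [h3, h4]

theorem Sym.const_of_stab (hS : Sym S) {u : K → ℝ} (hu : Harm S u) (N : Subgroup K)
    [N.FiniteIndex] (hN : ∀ g ∈ N, ∀ x, u (g * x) = u x) (x : K) : u x = u 1 := by
  refine hS.const_of_finite hu ((Set.finite_range fun q : K ⧸ N => u (q.out)⁻¹).subset ?_) x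
  rintro _ ⟨y, rfl⟩
  refine ⟨(y⁻¹ : K), ?_⟩
  obtain ⟨h, hh⟩ := QuotientGroup.mk_out_eq_mul N y⁻¹
  simp only [hh, mul_inv_rev, inv_inv]
  exact hN _ (N.inv_mem h.2) y

end Vale.Agent.P188
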