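import Vale.Agent.P188.Gr.Cover
import Vale.Agent.P188.Gr.Cacc
import Vale.Agent.P188.Gr.Det

/-! Part Gr, file FinA: Gram matrices on balls.
PLAN. `gm_posDef`: the subspaces `{c | ∀ x ∈ bl S R, ∑ i, c i * v i x = 0}` decrease, stabilise (`IsArtinian.monotone_stabilizes`
or minimal finrank) and have intersection `⊥` (`Fintype.linearIndependent_iff`, `hS.gen`).
`gm_det_le`: entries are at most `card (bl S R) * (c (R + 1)) ^ 2` (`abs_sub_le_of_lip`), `Matrix.det_le`.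
`gm_step`: `X` from `local_poincare`, `card X ≤ N`; `W` = kernel of the linear map `c ↦ (x ↦ ∑ g ∈ bl S (2 r), ∑ i, c i * v i (x * g))`
to `X → ℝ` (`LinearMap.finrank_range_add_finrank_ker`); `caccioppoli` with `a = R + 6 r`, `b = R` for the harmonic function
`∑ i, c i * v i`; `det_le_of_form`. -/

namespace Vale.Agent.P188

open Finset Matrix

variable {K : Type*} [Group K] {S : Finset K} {ι : Type*} [Fintype ι] [DecidableEq ι]

theorem gm_form (F : Finset K) (v : ι → K → ℝ) (c : ι → ℝ) :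
    c ⬝ᵥ gm F v *ᵥ c = ∑ x ∈ F, (∑ i, c i * v i x) ^ 2 := by
  simp only [dotProduct, mulVec, gm, of_apply, sq, sum_mul, mul_sum]
  rw [sum_comm (s := F)]
  refine sum_congr rfl fun i _ => ?_
  rw [sum_comm (s := F)]
  exact sum_congr rfl fun j _ => sum_congr rfl fun x _ => by ring

theorem gm_posSemidef (F : Finset K) (v : ι → K → ℝ) : (gm F v).PosSemidef := by
  refine PosSemidef.of_dotProduct_mulVec_nonneg ?_ fun c => ?_
  · ext i j
    simp [gm, mul_comm]
  · rw [star_trivial, gm_form]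
    exact sum_nonneg fun _ _ => sq_nonneg _

theorem Sym.gm_posDef (hS : Sym S) {v : ι → K → ℝ} (hv : LinearIndependent ℝ v) :
    ∃ R0, ∀ R, R0 ≤ R → (gm (bl S R) v).PosDef := by
  let Z : ℕ → Submodule ℝ (ι → ℝ) := fun R =>
    (Submodule.pi (bl S R : Set K) fun _ => ⊥).comap (Fintype.linearCombination ℝ v)
  have h1 : ∀ R c, c ∈ Z R ↔ ∀ x ∈ bl S R, ∑ i, c i * v i x = 0 := fun R c => by
    simp [Z, Submodule.mem_pi, Fintype.linearCombination_apply]
  have h2 : ∀ {R R'}, R ≤ R' → Z R' ≤ Z R := fun h c hc =>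
    (h1 _ c).2 fun x hx => (h1 _ c).1 hc x (bl_mono hS.one h hx)
  obtain ⟨_, ⟨R0, rfl⟩, h3⟩ := (wellFounded_lt (α := Submodule ℝ (ι → ℝ))).has_min (Set.range Z)
    (Set.range_nonempty Z)
  refine ⟨R0, fun R hR => PosDef.of_dotProduct_mulVec_pos (gm_posSemidef _ v).1 fun c hc => ?_⟩
  rw [star_trivial, gm_form]
  refine (sum_nonneg fun _ _ => sq_nonneg _).lt_of_ne' fun h => hc ?_
  have h4 : c ∈ Z R0 := h2 hR ((h1 R c).2 fun x hx => pow_eq_zero_iff two_ne_zero |>.1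
    ((sum_eq_zero_iff_of_nonneg fun _ _ => sq_nonneg _).1 h x hx))
  refine funext (Fintype.linearIndependent_iff.1 hv c (funext fun x => ?_))
  obtain ⟨n, hn⟩ := hS.gen x
  have h5 : Z (max R0 n) = Z R0 := (h2 (le_max_left _ _)).eq_of_not_lt (h3 _ ⟨_, rfl⟩)
  simpa using (h1 _ c).1 (h5.symm ▸ h4) x (bl_mono hS.one (le_max_right _ _) hn)

theorem fina_le {F F' : Finset K} (h : F ⊆ F') (v : ι → K → ℝ) (c : ι → ℝ) :
    c ⬝ᵥ gm F v *ᵥ c ≤ c ⬝ᵥ gm F' v *ᵥ c := by
  rw [gm_form, gm_form]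
  exact sum_le_sum_of_subset_of_nonneg h fun _ _ _ => sq_nonneg _

theorem gm_det_mono {F F' : Finset K} (h : F ⊆ F') {v : ι → K → ℝ} (hp : (gm F' v).PosDef) :
    (gm F v).det ≤ (gm F' v).det := by
  simpa using det_le_of_form (gm_posSemidef F v) hp (fina_le h v) ⊤ (N := 0) (by simp) zero_le_one
    le_rfl fun c _ => (fina_le h v c).trans_eq (one_mul _).symm

theorem gm_det_le {d : ℕ} (hG : PG K d) {v : ι → K → ℝ} (hv : ∀ i, v i ∈ HL S) :
    ∃ C : ℝ, 0 < C ∧ ∀ R : ℕ,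
      (gm (bl S R) v).det ≤ C * (((R : ℝ) + 1) ^ (d + 2)) ^ Fintype.card ι := by
  obtain ⟨C, hC⟩ := hG S
  choose L hL using fun i => (hv i).2
  obtain ⟨c, hc⟩ := Finite.exists_le fun i => |v i 1| + |L i|
  have h1 : ∀ i R, ∀ x ∈ bl S R, |v i x| ≤ c * (R + 1) := fun i R x hx => by
    have h2 := abs_sub_le_of_lip (hL i) hx
    have h3 := abs_sub_abs_le_abs_sub (v i x) (v i 1)
    have h4 : (0 : ℝ) ≤ R := Nat.cast_nonneg R
    nlinarith [hc i, abs_nonneg (v i 1), abs_nonneg (L i), le_abs_self (L i)]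
  refine ⟨(Fintype.card ι).factorial * (|C| * c ^ 2 + 1) ^ Fintype.card ι, by positivity,
    fun R => ?_⟩
  refine (le_abs_self _).trans ((Matrix.det_le (abv := AbsoluteValue.abs)
    (x := (|C| * c ^ 2 + 1) * ((R : ℝ) + 1) ^ (d + 2)) fun i j => ?_).trans_eq ?_)
  · refine (abs_sum_le_sum_abs _ _).trans ((sum_le_card_nsmul _ _ ((c * (R + 1)) ^ 2)
      fun x hx => ?_).trans ?_)
    · rw [abs_mul, sq]
      exact mul_le_mul (h1 i R x hx) (h1 j R x hx) (abs_nonneg _)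
        ((abs_nonneg _).trans (h1 i R x hx))
    · rw [nsmul_eq_mul]
      refine (mul_le_mul_of_nonneg_right ((hC R).trans (mul_le_mul_of_nonneg_right (le_abs_self C)
        (by positivity))) (sq_nonneg _)).trans ?_
      rw [add_mul, one_mul]
      exact (le_of_eq (by ring)).trans (le_add_of_nonneg_right (by positivity))
  · rw [nsmul_eq_mul, mul_pow, mul_assoc]

theorem Sym.gm_step (hS : Sym S) {v : ι → K → ℝ} (hv : ∀ i, Harm S (v i)) {R r N : ℕ} {A ε : ℝ}
    (hr : 1 ≤ r) (hR : 6 * r ≤ R) (hA : ((bl S (8 * r)).card : ℝ) ≤ A * (bl S r).card)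
    (hN : (bl S (8 * R)).card ≤ N * (bl S r).card) (hp : (gm (bl S (8 * R)) v).PosDef)
    (h0 : 0 ≤ ε) (h1 : ε ≤ 1) (hε : 8 * (r : ℝ) ^ 2 * A ^ 2 * S.card ≤ ε * (R : ℝ) ^ 2) :
    (gm (bl S R) v).det ≤ ε ^ (Fintype.card ι - N) * (gm (bl S (8 * R)) v).det := by
  obtain ⟨X, hX, hf⟩ := hS.local_poincare R r hA
  have h2 : X.card ≤ N := Nat.le_of_mul_le_mul_right (hX.trans ((card_le_card
    (bl_mono hS.one (by omega))).trans hN)) (hS.card_pos r)
  let L : (ι → ℝ) →ₗ[ℝ] X → ℝ :=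
    (Matrix.of fun (x : X) i => ∑ g ∈ bl S (2 * r), v i (x * g)).mulVecLin
  refine det_le_of_form (gm_posSemidef _ v) hp (fina_le (bl_mono hS.one (by omega)) v) L.ker ?_ h0 h1
    fun c hc => ?_
  · have h3 := L.finrank_range_add_finrank_ker
    have h4 := L.range.finrank_le
    rw [Module.finrank_fintype_fun_eq_card, Fintype.card_coe] at h4
    rw [Module.finrank_fintype_fun_eq_card] at h3
    omega
  have h3 := hf (fun x => ∑ i, c i * v i x) fun x hx => by
    have h4 := congrFun (LinearMap.mem_ker.1 hc) ⟨x, hx⟩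
    rw [sum_comm]
    simpa [L, mulVec, dotProduct, ← mul_sum, mul_comm] using h4
  have h4 := hS.caccioppoli (u := fun x => ∑ i, c i * v i x) (fun x => by
    simp only [← sum_sub_distrib, ← mul_sub]
    rw [sum_comm]
    exact sum_eq_zero fun i _ => by rw [← mul_sum, hv i x, mul_zero]) (R + 6 * r) R
  have h5 := fina_le (bl_mono hS.one (show R + 6 * r + R + 2 ≤ 8 * R by omega)) v c
  rw [gm_form, gm_form] at h5 ⊢
  have h6 : (0 : ℝ) < (R : ℝ) ^ 2 := pow_pos (Nat.cast_pos.2 (by omega)) 2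
  refine le_of_mul_le_mul_left ((mul_le_mul_of_nonneg_left h3 h6.le).trans ?_) h6
  rw [mul_left_comm, ← mul_assoc ((R : ℝ) ^ 2), mul_comm _ ε]
  refine (mul_le_mul_of_nonneg_left (h4.trans (mul_le_mul_of_nonneg_left h5 (Nat.cast_nonneg _)))
    (by positivity)).trans ?_
  rw [← mul_assoc]
  exact mul_le_mul_of_nonneg_right hε (sum_nonneg fun _ _ => sq_nonneg _)

end Vale.Agent.P188
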