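import Vale.Agent.P188.Gr.FinA

/-! Part Gr, file FinB: the space of Lipschitz harmonic functions is finite dimensional (Kleiner).
PLAN. `a = (3 d + 2) log 8 + 1`, `A = exp a`, `ε = exp (-(2 a + 1))`; choose `w ≥ 1` with `8 A ^ 2 card S ≤ ε * 64 ^ w`, and `N` with
`exp (a (w + 1)) ≤ N`. Let `v` be independent with `D = card ι > 0`. `h j = log card (bl S (8 ^ j))` is monotone and `≤ c + d j log 8`,
`φ j = log det (gm (bl S (8 ^ j)) v) / D` is monotone from `R0` on (`j < 8 ^ j`) and `≤ c' + (d + 2) j log 8` (`8 ^ j + 1 ≤ 2 * 8 ^ j`;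
where the determinant is not positive is irrelevant: shift the index by `R0`). `Ψ k = h k + (∑ i ∈ range (w + 1), h (k + i)) / (w + 1) + φ (k + w)`
has `Ψ (k + 1) - Ψ k = (h (k + 1) - h k) + (h (k + w + 1) - h k) / (w + 1) + (φ (k + w + 1) - φ (k + w))`, three nonnegative terms.
`scale` gives `k` with all three `≤ a`. `gm_step` with `r = 8 ^ k`, `R = 8 ^ (k + w)`; logarithms: `(D - N) (2 a + 1) ≤ a D`, so `D ≤ 2 N`.
`HL_finite`: `rank_le`, `Module.rank_lt_aleph0_iff`; `LinearIndependent.map'` along `(HL S).subtype`. -/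

namespace Vale.Agent.P188

open Finset

variable {K : Type*} [Group K] {S : Finset K}

theorem scale {Ψ : ℕ → ℝ} {c α : ℝ} (h : ∀ k : ℕ, Ψ k ≤ c + α * k) :
    ∃ k, Ψ (k + 1) - Ψ k ≤ α + 1 := by
  by_contra hc
  push Not at hc
  have h1 : ∀ k : ℕ, Ψ 0 + (α + 1) * k ≤ Ψ k := fun k => by
    induction k with
    | zero => simp
    | succ k ih =>
      have := hc k
      push_cast
      linarith
  obtain ⟨k, hk⟩ := exists_nat_gt (c - Ψ 0)
  have := h1 k
  have := h k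
  linarith

theorem FinB_three {h φ : ℕ → ℝ} (hh : Monotone h) (hφ : Monotone φ) {c c' α β : ℝ}
    (h1 : ∀ j : ℕ, h j ≤ c + α * j) (h2 : ∀ j : ℕ, φ j ≤ c' + β * j) (w : ℕ) :
    ∃ k, h (k + 1) - h k ≤ 2 * α + β + 1 ∧ h (k + w + 1) - h k ≤ (2 * α + β + 1) * (w + 1) ∧
      φ (k + w + 1) - φ (k + w) ≤ 2 * α + β + 1 := by
  have hw : (0 : ℝ) < (w : ℝ) + 1 := by positivity
  obtain ⟨k, hk⟩ := scale
    (Ψ := fun k => h k + (∑ i ∈ range (w + 1), h (k + i)) / (w + 1) + φ (k + w))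
    (c := 2 * c + α * w + c' + β * w) (α := 2 * α + β) fun k => by
      have a1 := h1 k
      have a2 := h2 (k + w)
      have a3 := h1 (k + w)
      have a4 : ∑ i ∈ range (w + 1), h (k + i) ≤ ∑ i ∈ range (w + 1), h (k + w) :=
        sum_le_sum fun i hi => hh (by have := mem_range.1 hi; omega)
      rw [sum_const, card_range, nsmul_eq_mul] at a4
      have a5 : (∑ i ∈ range (w + 1), h (k + i)) / (w + 1) ≤ h (k + w) := by
        rw [div_le_iff₀ hw]
        push_cast at a4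
        linarith
      push_cast at a2 a3
      linarith
  have e : ∑ i ∈ range (w + 1), h (k + 1 + i) =
      ∑ i ∈ range (w + 1), h (k + i) + (h (k + w + 1) - h k) := by
    have e1 := sum_range_succ (fun i => h (k + i)) (w + 1)
    have e2 := sum_range_succ' (fun i => h (k + i)) (w + 1)
    simp only [add_zero] at e2
    have e3 : ∑ i ∈ range (w + 1), h (k + 1 + i) = ∑ i ∈ range (w + 1), h (k + (i + 1)) :=
      sum_congr rfl fun i _ => by congr 1; omega
    rw [e3, add_assoc k w 1]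
    linarith
  simp only [e, add_div] at hk
  rw [show k + 1 + w = k + w + 1 by omega] at hk
  have b1 : 0 ≤ h (k + 1) - h k := sub_nonneg.2 (hh (by omega))
  have b2 : 0 ≤ (h (k + w + 1) - h k) / (w + 1) :=
    div_nonneg (sub_nonneg.2 (hh (by omega))) hw.le
  have b3 : 0 ≤ φ (k + w + 1) - φ (k + w) := sub_nonneg.2 (hφ (by omega))
  refine ⟨k, by linarith, ?_, by linarith⟩
  rw [← div_le_iff₀ hw]
  linarith

theorem FinB_log {x C : ℝ} (hx : 0 < x) (m e : ℕ) (h : x ≤ C * ((((8 ^ m : ℕ) : ℝ) + 1) ^ e)) :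
    Real.log x ≤ Real.log C + e * ((m + 1) * Real.log 8) := by
  have h8 : (1 : ℝ) ≤ (8 : ℝ) ^ m := one_le_pow₀ (by norm_num)
  have hp : (0 : ℝ) < (((8 ^ m : ℕ) : ℝ) + 1) := by positivity
  have hC : 0 < C := by
    by_contra hC
    have := mul_nonpos_of_nonpos_of_nonneg (not_lt.1 hC) (pow_pos hp e).le
    linarith
  refine (Real.log_le_log hx h).trans ?_
  rw [Real.log_mul hC.ne' (pow_pos hp e).ne', Real.log_pow]
  have : Real.log (((8 ^ m : ℕ) : ℝ) + 1) ≤ (m + 1) * Real.log 8 := by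
    have e1 : ((m : ℝ) + 1) * Real.log 8 = Real.log ((8 : ℝ) ^ (m + 1)) := by
      rw [Real.log_pow]; push_cast; ring
    rw [e1]
    refine Real.log_le_log hp ?_
    push_cast
    rw [pow_succ]
    linarith
  gcongr

theorem FinB_exp {x y a : ℝ} (hx : 0 < x) (hy : 0 < y) (h : Real.log x - Real.log y ≤ a) :
    x ≤ Real.exp a * y := by
  rw [← Real.log_div hx.ne' hy.ne', Real.log_le_iff_le_exp (div_pos hx hy), div_le_iff₀ hy] at h
  exact h

theorem Sym.card_le (hS : Sym S) {d : ℕ} (hG : PG K d) : ∃ M : ℕ, ∀ (D : ℕ) (v : Fin D → K → ℝ),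
    LinearIndependent ℝ v → (∀ i, v i ∈ HL S) → D ≤ M := by
  have hl : 0 < Real.log 8 := Real.log_pos (by norm_num)
  obtain ⟨a, ha⟩ : ∃ a : ℝ, a = 2 * (d * Real.log 8) + (d + 2) * Real.log 8 + 1 := ⟨_, rfl⟩
  have ha0 : 0 < a := by rw [ha]; positivity
  obtain ⟨ε, hε⟩ : ∃ ε : ℝ, ε = Real.exp (-(2 * a + 1)) := ⟨_, rfl⟩
  have hε0 : 0 < ε := hε ▸ Real.exp_pos _
  have hε1 : ε ≤ 1 := by rw [hε]; exact Real.exp_le_one_iff.2 (by linarith)
  obtain ⟨w0, hw0⟩ := pow_unbounded_of_one_lt (8 * Real.exp a ^ 2 * S.card / ε)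
    (show (1 : ℝ) < 64 by norm_num)
  obtain ⟨w, hw⟩ : ∃ w : ℕ, w = w0 + 1 := ⟨_, rfl⟩
  have hw1 : 8 * Real.exp a ^ 2 * S.card ≤ ε * 64 ^ w := by
    rw [div_lt_iff₀ hε0] at hw0
    have : (64 : ℝ) ^ w0 ≤ 64 ^ w := pow_le_pow_right₀ (by norm_num) (by omega)
    nlinarith
  obtain ⟨N, hN⟩ := exists_nat_ge (Real.exp (a * (w + 1)))
  refine ⟨2 * N, fun D v hv hvH => ?_⟩
  by_contra hD
  have hD0 : (0 : ℝ) < D := Nat.cast_pos.2 (by omega)
  obtain ⟨R0, hR0⟩ := hS.gm_posDef hv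
  have hpd : ∀ j, (gm (bl S (8 ^ (j + R0))) v).PosDef := fun j =>
    hR0 _ (le_trans (Nat.le_add_left R0 j) (Nat.lt_pow_self (by norm_num)).le)
  have hsub : ∀ {i j : ℕ}, i ≤ j → bl S (8 ^ (i + R0)) ⊆ bl S (8 ^ (j + R0)) := fun hij =>
    bl_mono hS.one (Nat.pow_le_pow_right (by norm_num) (by omega))
  have hc : ∀ n, (0 : ℝ) < (bl S n).card := fun n => Nat.cast_pos.2 (hS.card_pos n)
  obtain ⟨C, hC⟩ := hG S
  obtain ⟨C', -, hC'⟩ := gm_det_le hG hvH
  rw [Fintype.card_fin] at hC'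
  obtain ⟨k, k1, k2, k3⟩ := FinB_three
    (h := fun j => Real.log (bl S (8 ^ (j + R0))).card)
    (φ := fun j => Real.log (gm (bl S (8 ^ (j + R0))) v).det / D)
    (fun i j hij => Real.log_le_log (hc _) (Nat.cast_le.2 (card_le_card (hsub hij))))
    (fun i j hij => div_le_div_of_nonneg_right
      (Real.log_le_log (hpd i).det_pos (gm_det_mono (hsub hij) (hpd j))) hD0.le)
    (c := Real.log C + d * ((R0 + 1) * Real.log 8))
    (c' := Real.log C' / D + (d + 2) * ((R0 + 1) * Real.log 8))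
    (α := d * Real.log 8) (β := (d + 2) * Real.log 8)
    (fun j => by
      have := FinB_log (hc _) (j + R0) d (hC _)
      push_cast at this
      linarith)
    (fun j => by
      have h1 := hC' (8 ^ (j + R0))
      rw [← pow_mul] at h1
      have := FinB_log (hpd j).det_pos (j + R0) _ h1
      push_cast at this
      rw [div_le_iff₀ hD0, add_mul, add_mul, div_mul_cancel₀ _ hD0.ne']
      linarith) w
  rw [← ha] at k1 k2 k3
  have e1 : 8 ^ (k + 1 + R0) = 8 * 8 ^ (k + R0) := by ring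
  have e2 : 8 ^ (k + w + 1 + R0) = 8 * 8 ^ (k + w + R0) := by ring
  have e3 : 8 ^ (k + w + R0) = 8 ^ (k + R0) * 8 ^ w := by ring
  have hp := hpd (k + w + 1)
  simp only [e1, e2] at k1 k2 k3 hp
  have hstep := hS.gm_step (v := v) (fun i => (hvH i).1) (R := 8 ^ (k + w + R0))
    (r := 8 ^ (k + R0)) (N := N) (A := Real.exp a) (ε := ε) (Nat.one_le_pow _ _ (by norm_num))
    (by
      rw [e3, hw, pow_succ]
      have : 1 ≤ 8 ^ w0 := Nat.one_le_pow _ _ (by norm_num)
      nlinarith [Nat.one_le_pow (k + R0) 8 (by norm_num)])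
    (FinB_exp (hc _) (hc _) k1)
    (by
      have := FinB_exp (hc _) (hc _) k2
      have h2 := mul_le_mul_of_nonneg_right hN (hc (8 ^ (k + R0))).le
      exact_mod_cast this.trans h2) hp hε0.le hε1
    (by
      rw [e3]
      push_cast
      have e4 : ((8 : ℝ) ^ w) ^ 2 = 64 ^ w := by rw [← pow_mul, mul_comm, pow_mul]; norm_num
      rw [mul_pow, e4]
      have := mul_le_mul_of_nonneg_left hw1 (sq_nonneg ((8 : ℝ) ^ (k + R0)))
      linarith)
  rw [Fintype.card_fin] at hstep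
  have h5 := Real.log_le_log (hpd (k + w)).det_pos hstep
  rw [Real.log_mul (pow_pos hε0 _).ne' hp.det_pos.ne', Real.log_pow, hε, Real.log_exp,
    Nat.cast_sub (by omega)] at h5
  rw [← sub_div, div_le_iff₀ hD0] at k3
  have h6 : (2 * N : ℝ) < D := by exact_mod_cast not_le.1 hD
  have h7 : (0 : ℝ) ≤ N := N.cast_nonneg
  nlinarith

theorem Sym.HL_finite (hS : Sym S) {d : ℕ} (hG : PG K d) : Module.Finite ℝ (HL S) := by
  obtain ⟨M, hM⟩ := hS.card_le hG
  rw [← Module.rank_lt_aleph0_iff]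
  refine lt_of_le_of_lt (rank_le (n := M) fun s hs => ?_) Cardinal.natCast_lt_aleph0
  have h1 := (hs.map' (HL S).subtype (Submodule.ker_subtype _)).comp _ s.equivFin.symm.injective
  exact hM _ _ h1 fun i => Subtype.property _

end Vale.Agent.P188
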