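import Vale.Agent.P188.Gr.Defs

/-! Part Gr, file Poin: Poincare inequality on balls.
PLAN. `shift_le`: induction on `m`, `g = g' * s`; `m (a + b) ^ 2 ≤ (m + 1) (a ^ 2 + m b ^ 2)`; the points `z * x * g'` are distinct
and lie in `z * bl S (r + m)` (`sum_le_sum_of_subset_of_nonneg` after `sum_image`/`sum_map`, `en_nonneg`, `bl_mono`).
`poincare`: `∑ x, ∑ y, (f x - f y) ^ 2 = 2 card * ∑ f ^ 2 - 2 (∑ f) ^ 2`; for fixed `x` the map `y ↦ x⁻¹ * y` is injective into
`bl S (2 * r)`; `sum_comm`, `shift_le` with `m = 2 * r`. -/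

namespace Vale.Agent.P188

open Finset

variable {K : Type*} [Group K] {S : Finset K}

omit [Group K] in
theorem poin_inj {F G : Finset K} {e : K → K} (he : Function.Injective e)
    (h : ∀ x ∈ F, e x ∈ G) {φ : K → ℝ} (hφ : ∀ x, 0 ≤ φ x) : ∑ x ∈ F, φ (e x) ≤ ∑ y ∈ G, φ y := by
  refine (sum_map F ⟨e, he⟩ φ).symm.le.trans (sum_le_sum_of_subset_of_nonneg (fun y hy => ?_)
    fun y _ _ => hφ y)
  obtain ⟨x, hx, rfl⟩ := mem_map.1 hy
  exact h x hx

theorem Sym.shift_le (hS : Sym S) (f : K → ℝ) (z : K) (r m : ℕ) {g : K} (hg : g ∈ bl S m) :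
    ∑ x ∈ bl S r, (f (z * x * g) - f (z * x)) ^ 2 ≤
      (m : ℝ) ^ 2 * ∑ x ∈ bl S (r + m), en S f (z * x) := by
  induction m generalizing g with
  | zero => simp [mem_bl_zero.1 hg]
  | succ m ih =>
    obtain ⟨g', hg', s, hs, rfl⟩ := mem_bl_succ.1 hg
    set E := ∑ x ∈ bl S (r + (m + 1)), en S f (z * x) with hE
    have hm : ∑ x ∈ bl S (r + m), en S f (z * x) ≤ E :=
      sum_le_sum_of_subset_of_nonneg (bl_mono hS.one (by omega)) fun _ _ _ => en_nonneg _ _
    have ha : ∑ x ∈ bl S r, (f (z * x * g') - f (z * x)) ^ 2 ≤ (m : ℝ) ^ 2 * E :=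
      (ih hg').trans (mul_le_mul_of_nonneg_left hm (sq_nonneg _))
    have hb : ∑ x ∈ bl S r, (f (z * x * (g' * s)) - f (z * x * g')) ^ 2 ≤ E := by
      refine le_trans (sum_le_sum fun x _ => ?_) ((poin_inj (mul_left_injective g')
        (fun x hx => mul_mem_bl hx hg') (φ := fun y => en S f (z * y))
        fun _ => en_nonneg _ _).trans hm)
      simp only [← mul_assoc]
      exact single_le_sum (f := fun s => (f (z * x * g' * s) - f (z * x * g')) ^ 2)
        (fun _ _ => sq_nonneg _) hs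
    rcases Nat.eq_zero_or_pos m with rfl | h0
    · obtain rfl := mem_bl_zero.1 hg'
      simpa using hb
    · have h1 : (0 : ℝ) < m := Nat.cast_pos.2 h0
      refine le_of_mul_le_mul_left ?_ h1
      calc (m : ℝ) * ∑ x ∈ bl S r, (f (z * x * (g' * s)) - f (z * x)) ^ 2
          ≤ (m + 1) * (∑ x ∈ bl S r, (f (z * x * g') - f (z * x)) ^ 2 +
            m * ∑ x ∈ bl S r, (f (z * x * (g' * s)) - f (z * x * g')) ^ 2) := by
            rw [mul_sum, mul_sum, ← sum_add_distrib, mul_sum]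
            refine sum_le_sum fun x _ => ?_
            nlinarith [sq_nonneg ((f (z * x * g') - f (z * x)) -
              m * (f (z * x * (g' * s)) - f (z * x * g')))]
        _ ≤ (m + 1) * ((m : ℝ) ^ 2 * E + m * E) := by gcongr
        _ = _ := by
            push_cast
            ring

theorem Sym.poincare (hS : Sym S) (f : K → ℝ) (z : K) (r : ℕ)
    (h0 : ∑ x ∈ bl S r, f (z * x) = 0) :
    ((bl S r).card : ℝ) * ∑ x ∈ bl S r, f (z * x) ^ 2 ≤
      2 * (r : ℝ) ^ 2 * (bl S (2 * r)).card * ∑ x ∈ bl S (3 * r), en S f (z * x) := by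
  have h1 : ∑ x ∈ bl S r, ∑ y ∈ bl S r, (f (z * y) - f (z * x)) ^ 2 =
      2 * (((bl S r).card : ℝ) * ∑ x ∈ bl S r, f (z * x) ^ 2) := by
    have h2 : ∀ x, ∑ y ∈ bl S r, (f (z * y) - f (z * x)) ^ 2 =
        ∑ y ∈ bl S r, f (z * y) ^ 2 + (bl S r).card * f (z * x) ^ 2 := fun x => by
      simp only [sub_sq, sum_add_distrib, sum_sub_distrib, sum_const, nsmul_eq_mul, ← sum_mul,
        ← mul_sum, h0]
      ring
    simp only [h2, sum_add_distrib, sum_const, nsmul_eq_mul, ← mul_sum]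
    ring
  have h3 : ∑ x ∈ bl S r, ∑ y ∈ bl S r, (f (z * y) - f (z * x)) ^ 2 ≤
      ∑ x ∈ bl S r, ∑ g ∈ bl S (2 * r), (f (z * x * g) - f (z * x)) ^ 2 := by
    refine sum_le_sum fun x hx => le_trans (le_of_eq ?_) (poin_inj (mul_right_injective x⁻¹)
      (F := bl S r) (fun y hy => two_mul r ▸ mul_mem_bl (inv_mem_bl hS.inv hx) hy)
      (φ := fun g => (f (z * x * g) - f (z * x)) ^ 2) fun _ => sq_nonneg _)
    simp only [mul_assoc, mul_inv_cancel_left]
  rw [h1, sum_comm] at h3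
  have h4 := h3.trans (sum_le_sum fun g hg => hS.shift_le f z r (2 * r) hg)
  rw [sum_const, nsmul_eq_mul, show r + 2 * r = 3 * r by ring] at h4
  push_cast at h4
  linarith

end Vale.Agent.P188
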