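import Vale.Agent.P188.Defs

/-! Part Gr, file Solv: infinite solvable quotients give a finite-index subgroup that maps onto the integers.
PLAN. `comm_surj`: `CommGroup.equiv_free_prod_directSum_zmod`-type structure theorem (for `Additive G`:
`AddCommGroup.equiv_free_prod_directSum_zmod`), or: `G` is not torsion (`finite_of_fg_isMulTorsion`), the quotient by torsion is a
nonzero free `ℤ`-module, take a coordinate of a basis.
`virt_surj`: induction on `k` generalizing `H`. If `commutator H` has infinite index use `comm_surj` for `Abelianization H` and `H0 = ⊤`.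
Otherwise apply the induction to `H' = commutator H` (f.g. by Schreier), `N.subgroupOf H'` (infinite index, `relIndex_mul_index`-type
lemmas), `(derivedSeries H' k).map H'.subtype ≤ derivedSeries H (k + 1)` (induction on `k`, `Subgroup.map_commutator`); transport with
`surj_map`. -/

namespace Vale.Agent.P188

universe u

theorem comm_surj (G : Type*) [CommGroup G] [Group.FG G] [Infinite G] :
    ∃ φ : G →* Multiplicative ℤ, Function.Surjective φ := by
  classical
  obtain ⟨ι, j, _, _, p, hp, e, ⟨f⟩⟩ := CommGroup.equiv_free_prod_prod_multiplicative_zmod G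
  rcases isEmpty_or_nonempty j with hj | ⟨⟨j0⟩⟩
  · have : ∀ i, NeZero (p i ^ e i) := fun i => ⟨pow_ne_zero _ (hp i).ne_zero⟩
    have : Finite G := Finite.of_equiv _ f.symm.toEquiv
    exact (not_finite G).elim
  · refine ⟨((Pi.evalMonoidHom (fun _ => Multiplicative ℤ) j0).comp (MonoidHom.fst _ _)).comp
      f.toMonoidHom, fun a => ⟨f.symm (fun _ => a, 1), ?_⟩⟩
    simp

theorem surj_map {H : Type*} [Group H] (H' : Subgroup H) [H'.FiniteIndex]
    (h : ∃ H0 : Subgroup H', H0.FiniteIndex ∧
      ∃ φ : H0 →* Multiplicative ℤ, Function.Surjective φ) :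
    ∃ H0 : Subgroup H, H0.FiniteIndex ∧ ∃ φ : H0 →* Multiplicative ℤ, Function.Surjective φ := by
  obtain ⟨H0, h0, φ, hφ⟩ := h
  refine ⟨H0.map H'.subtype, ⟨?_⟩,
    φ.comp (H0.equivMapOfInjective H'.subtype H'.subtype_injective).symm.toMonoidHom, ?_⟩
  · rw [Subgroup.index_map_subtype]
    exact mul_ne_zero h0.index_ne_zero Subgroup.FiniteIndex.index_ne_zero
  · exact hφ.comp (H0.equivMapOfInjective H'.subtype H'.subtype_injective).symm.surjective

theorem solv_map_derived {H : Type*} [Group H] (k : ℕ) :
    (derivedSeries (commutator H) k).map (commutator H).subtype ≤ derivedSeries H (k + 1) := by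
  induction k with
  | zero =>
    rintro _ ⟨x, -, rfl⟩
    exact x.2
  | succ k ih =>
    rw [derivedSeries_succ, derivedSeries_succ H (k + 1), Subgroup.map_commutator]
    exact Subgroup.commutator_mono ih ih

theorem virt_surj (k : ℕ) : ∀ {H : Type u} [Group H] [Group.FG H] (N : Subgroup H),
    ¬ N.FiniteIndex → derivedSeries H k ≤ N →
      ∃ H0 : Subgroup H, H0.FiniteIndex ∧ ∃ φ : H0 →* Multiplicative ℤ, Function.Surjective φ := by
  induction k with
  | zero =>
    intro H _ _ N hN h
    exact (hN (Subgroup.finiteIndex_of_le (H := ⊤) h)).elim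
  | succ k ih =>
    intro H _ _ N hN h
    by_cases hc : (commutator H).FiniteIndex
    · have : Group.FG (commutator H) := Subgroup.fg_of_index_ne_zero _
      refine surj_map (commutator H) (ih (N.subgroupOf (commutator H)) (fun hf => hN ?_)
        fun x hx => h (solv_map_derived k ⟨x, hx, rfl⟩))
      have h1 : ((N.subgroupOf (commutator H)).map (commutator H).subtype).FiniteIndex := by
        refine ⟨?_⟩
        rw [Subgroup.index_map_subtype]
        exact mul_ne_zero hf.index_ne_zero hc.index_ne_zero
      refine Subgroup.finiteIndex_of_le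
        (H := (N.subgroupOf (commutator H)).map (commutator H).subtype) ?_
      rintro _ ⟨x, hx, rfl⟩
      exact hx
    · have hs : Function.Surjective (Abelianization.of : H →* Abelianization H) :=
        QuotientGroup.mk_surjective
      have : Group.FG (Abelianization H) := Group.fg_of_surjective hs
      have : Infinite (Abelianization H) := not_finite_iff_infinite.1 fun hf =>
        hc (@Subgroup.finiteIndex_of_finite_quotient _ _ _ hf)
      obtain ⟨φ, hφ⟩ := comm_surj (Abelianization H)
      refine ⟨⊤, inferInstance, (φ.comp Abelianization.of).comp (⊤ : Subgroup H).subtype, ?_⟩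
      exact (hφ.comp hs).comp fun x => ⟨⟨x, Subgroup.mem_top x⟩, rfl⟩

end Vale.Agent.P188
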