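import Vale.Agent.P188.Gr.ZassA

/-! Part Gr, file ZassB: bounded linear images of groups of polynomial growth are virtually solvable.
PLAN. `zass_nil`: `H = closure T`, `Q = H ⧸ ker (ρ.comp H.subtype)` (or the range of `ρ.toHomUnits.comp H.subtype`). Induction on `k`:
for `h : H`, `¬ Surv ρ T k h` puts the class of `h` in `upperCentralSeries Q k` (`mem_upperCentralSeries_succ_iff`; the set of `g` whose
commutator with `h` lies in the normal subgroup `Z k` is a subgroup: it is the comap of a centralizer in the quotient by `Z k`). So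
`Q` is nilpotent, solvable; `map_derivedSeries_le_derivedSeries`.
`zass`: `K' = closure {g | ‖ρ g - 1‖ ≤ ε}` has finite index: the range of `ρ` is totally bounded (`isCompact_closedBall`,
`TotallyBounded.subset`, `totallyBounded_iff_subset` / `Metric.finite_approx_of_totallyBounded`), `‖ρ (g⁻¹ g') - 1‖ ≤ ‖ρ g' - ρ g‖`.
`K'` is f.g. (Schreier), so `K' = closure T` for a finite `T` inside the set (`Subgroup.closure` is finitary: each generator lies in the
closure of a finite subset, `Subgroup.mem_closure_iff_exists_finset_subset`-like or closure induction). -/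

namespace Vale.Agent.P188

open Finset

variable {K : Type*} [Group K] {S : Finset K}

/-- a property closed under products and inverses holds on the group generated by `T` -/
theorem zassB_ind {T : Set K} {Q : Type*} [Group Q] (π : Subgroup.closure T →* Q) (M : Subgroup Q)
    (h : ∀ t (ht : t ∈ T), π ⟨t, Subgroup.subset_closure ht⟩ ∈ M) (y : Subgroup.closure T) :
    π y ∈ M := by
  obtain ⟨y, hy⟩ := y
  induction hy using Subgroup.closure_induction with
  | mem t ht => exact h t ht
  | one => exact (map_one π).symm ▸ M.one_mem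
  | mul a b ha hb iha ihb =>
    have := M.mul_mem iha ihb
    rwa [← map_mul] at this
  | inv a ha iha =>
    have := M.inv_mem iha
    rwa [← map_inv] at this

theorem zassB_fin {U : Set K} {x : K} (hx : x ∈ Subgroup.closure U) :
    ∃ T : Finset K, (T : Set K) ⊆ U ∧ x ∈ Subgroup.closure (T : Set K) := by
  classical
  induction hx using Subgroup.closure_induction with
  | mem t ht => exact ⟨{t}, by simpa using ht, Subgroup.subset_closure (by simp)⟩
  | one => exact ⟨∅, by simp, Subgroup.one_mem _⟩
  | mul a b _ _ iha ihb =>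
    obtain ⟨T, h1, h2⟩ := iha
    obtain ⟨T', h3, h4⟩ := ihb
    refine ⟨T ∪ T', by rw [coe_union]; exact Set.union_subset h1 h3, Subgroup.mul_mem _
      (Subgroup.closure_mono (by simp) h2) (Subgroup.closure_mono (by simp) h4)⟩
  | inv a _ iha =>
    obtain ⟨T, h1, h2⟩ := iha
    exact ⟨T, h1, Subgroup.inv_mem _ h2⟩

theorem zass_nil {A : Type*} [Monoid A] (ρ : K →* A) (T : Finset K) {k : ℕ}
    (h : ∀ h ∈ T, ¬ Surv ρ T k h) :
    ∃ j, ∀ g ∈ derivedSeries (Subgroup.closure (T : Set K)) j, ρ g = 1 := by
  let N := (ρ.comp (Subgroup.closure (T : Set K)).subtype).ker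
  let π := QuotientGroup.mk' N
  have hπ : Function.Surjective π := QuotientGroup.mk'_surjective N
  have key : ∀ (k : ℕ) (g : Subgroup.closure (T : Set K)), ¬ Surv ρ T k g →
      π g ∈ Subgroup.upperCentralSeries _ k := by
    intro k
    induction k with
    | zero => exact fun g hg => absurd trivial hg
    | succ k ih =>
      intro g hg
      by_cases h1 : ρ g = 1
      · have : π g = 1 := (QuotientGroup.eq_one_iff g).2 h1
        exact this ▸ Subgroup.one_mem _
      · rw [Subgroup.mem_upperCentralSeries_succ_iff]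
        intro y
        obtain ⟨y, rfl⟩ := hπ y
        let q := QuotientGroup.mk' (Subgroup.upperCentralSeries (_ ⧸ N) k)
        have := zassB_ind (q.comp π) (Subgroup.centralizer {q (π g)}) (fun t ht => by
          have h2 := ih (⟨t, Subgroup.subset_closure ht⟩ * g * (⟨t, Subgroup.subset_closure ht⟩)⁻¹
            * g⁻¹) fun hs => hg ⟨h1, t, ht, hs⟩
          have h3 := (QuotientGroup.eq_one_iff _).2 h2
          change q _ = 1 at h3
          rw [Subgroup.mem_centralizer_singleton_iff]
          simp only [map_mul, map_inv] at h3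
          rwa [mul_inv_eq_one, mul_inv_eq_iff_eq_mul] at h3) y
        rw [Subgroup.mem_centralizer_singleton_iff] at this
        refine (QuotientGroup.eq_one_iff _).1 ?_
        change q _ = 1
        rw [map_commutatorElement, commutatorElement_eq_one_iff_mul_comm]
        exact this.symm
  have : Group.IsNilpotent (_ ⧸ N) := ⟨k, eq_top_iff.2 fun y _ => by
    obtain ⟨y, rfl⟩ := hπ y
    exact zassB_ind π _ (fun t ht => key k _ (h t ht)) y⟩
  obtain ⟨j, hj⟩ := Group.IsSolvable.solvable (G := _ ⧸ N)
  refine ⟨j, fun g hg => ?_⟩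
  have h1 := map_derivedSeries_le_derivedSeries π j (Subgroup.mem_map_of_mem π hg)
  rw [hj, Subgroup.mem_bot] at h1
  exact (QuotientGroup.eq_one_iff g).1 h1

theorem zass {A : Type*} [NormedRing A] [NormedAlgebra ℝ A] [ProperSpace A] [Group.FG K]
    (ρ : K →* A) (hρ : ∀ g, ‖ρ g‖ ≤ 1) {d : ℕ} (hG : PG K d) :
    ∃ K' : Subgroup K, K'.FiniteIndex ∧ ∃ j, ∀ g ∈ derivedSeries K' j, ρ g = 1 := by
  classical
  obtain ⟨ε, hε, hc⟩ := zass_count ρ hρ hG
  let U : Set K := {g | ‖ρ g - 1‖ ≤ ε}
  have hb : TotallyBounded (Set.range ρ) :=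
    (isCompact_closedBall (0 : A) 1).totallyBounded.subset (by
      rintro _ ⟨g, rfl⟩
      simpa using hρ g)
  obtain ⟨t, ht1, ht2, ht3⟩ := Metric.finite_approx_of_totallyBounded hb ε hε
  have hf : (Subgroup.closure U).FiniteIndex := by
    have := ht2.to_subtype
    choose c hc using fun y : t => ht1 y.2
    have : Finite (K ⧸ Subgroup.closure U) := by
      refine Finite.of_surjective (fun y : t => (QuotientGroup.mk (c y) : K ⧸ _)) fun x => ?_
      obtain ⟨g, rfl⟩ := QuotientGroup.mk_surjective x
      obtain ⟨y, hy, hg⟩ := Set.mem_iUnion₂.1 (ht3 ⟨g, rfl⟩)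
      refine ⟨⟨y, hy⟩, QuotientGroup.eq.2 (Subgroup.subset_closure ?_)⟩
      have e : ρ ((c ⟨y, hy⟩)⁻¹ * g) - 1 = ρ (c ⟨y, hy⟩)⁻¹ * (ρ g - ρ (c ⟨y, hy⟩)) := by
        rw [mul_sub, ← map_mul, ← map_mul, inv_mul_cancel, map_one]
      change ‖_‖ ≤ ε
      rw [e, hc]
      refine (norm_mul_le _ _).trans ((mul_le_of_le_one_left (norm_nonneg _) (hρ _)).trans ?_)
      exact (mem_ball_iff_norm.1 hg).le
    exact Subgroup.finiteIndex_of_finite_quotient
  obtain ⟨F, hF⟩ := (Group.fg_iff_subgroup_fg _).1
    (inferInstance : Group.FG (Subgroup.closure U))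
  choose! τ hτ1 hτ2 using fun x (hx : x ∈ Subgroup.closure U) => zassB_fin hx
  have hFU : ∀ x ∈ F, x ∈ Subgroup.closure U := fun x hx => hF ▸ Subgroup.subset_closure hx
  have hT : ((F.biUnion τ : Finset K) : Set K) ⊆ U := fun g hg => by
    obtain ⟨x, hx, hg⟩ := mem_biUnion.1 (mem_coe.1 hg)
    exact hτ1 x (hFU x hx) hg
  have e : Subgroup.closure ((F.biUnion τ : Finset K) : Set K) = Subgroup.closure U := by
    refine le_antisymm (Subgroup.closure_mono hT) ?_
    rw [← hF, Subgroup.closure_le]
    exact fun x hx => Subgroup.closure_mono (coe_subset.2 (subset_biUnion_of_mem τ hx))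
      (hτ2 x (hFU x hx))
  obtain ⟨k, hk⟩ := hc _ fun g hg => hT hg
  exact ⟨_, e ▸ hf, zass_nil ρ _ hk⟩

end Vale.Agent.P188
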