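import Vale.Agent.P188.Gr.FinB
import Vale.Agent.P188.Gr.ExB
import Vale.Agent.P188.Gr.ZassB
import Vale.Agent.P188.Gr.Solv

/-! Part Gr, file Rep: an infinite group of polynomial growth virtually maps onto the integers.
PLAN. `rep_derived`: discrete topology on `K × S` (`let _ : TopologicalSpace (K × S) := ⊥`), `E = (K × S) →ᵇ ℝ`,
`grad : HL S →ₗ[ℝ] E`, `grad u (x, s) = u (x * s) - u x` (`ofNormedAddCommGroupDiscrete`), `W = range grad` is finite dimensional
(`HL_finite`); `ρ g : W →L[ℝ] W`, `ρ g ω (x, s) = ω (g⁻¹ * x, s)` (`compContinuousCLM`, `shift_mem_HL`, `LinearMap.restrict`,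
`LinearMap.mkContinuous _ 1`), `FiniteDimensional.proper_real`; `zass`.
`exists_virt_surj`: `u` from `exists_HL`; `N = {g : K' | ∀ x, u (g * x) = u x}` has infinite index in `K'` (`const_of_stab` for
`N.map K'.subtype`). For `g ∈ derivedSeries K' j` the function `x ↦ u (g * x) - u x` is a constant `λ g` (`Sym.induction`), `λ` is additive, so
commutators of such `g` lie in `N` (`derivedSeries_succ`, `Subgroup.commutator_le`); `virt_surj (j + 1)`, `surj_map`. -/

namespace Vale.Agent.P188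

open Finset

variable {K : Type*} [Group K] {S : Finset K}

theorem rep_aux [Group.FG K] {d : ℕ} (hG : PG K d) {E : Type*} [NormedAddCommGroup E]
    [NormedSpace ℝ E] (W : Submodule ℝ E) [FiniteDimensional ℝ W] (sh : K → E →L[ℝ] E)
    (h1 : ∀ ω, sh 1 ω = ω) (hm : ∀ g h ω, sh (g * h) ω = sh g (sh h ω))
    (hn : ∀ g ω, ‖sh g ω‖ ≤ ‖ω‖) (hW : ∀ g, ∀ ω ∈ W, sh g ω ∈ W) :
    ∃ K' : Subgroup K, K'.FiniteIndex ∧ ∃ j, ∀ g ∈ derivedSeries K' j, ∀ ω ∈ W, sh g ω = ω := by
  let ρ : K →* (W →L[ℝ] W) :=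
    { toFun := fun g => (sh g).restrict (hW g)
      map_one' := by
        ext ω
        exact h1 ω.1
      map_mul' := fun g h => by
        ext ω
        exact hm g h ω.1 }
  have hρ : ∀ g (ω : W), (ρ g ω).1 = sh g ω.1 := fun _ _ => rfl
  have hn' : ∀ g, ‖ρ g‖ ≤ 1 := fun g => by
    refine ContinuousLinearMap.opNorm_le_bound _ zero_le_one fun ω => ?_
    rw [one_mul]
    exact hn g ω.1
  have : ProperSpace (W →L[ℝ] W) := FiniteDimensional.proper_real (W →L[ℝ] W)
  obtain ⟨K', h1, j, hj⟩ := zass (A := W →L[ℝ] W) ρ hn' hG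
  refine ⟨K', h1, j, fun g hg ω hω => ?_⟩
  have h3 := hρ g ⟨ω, hω⟩
  rw [hj g hg] at h3
  exact h3.symm

open BoundedContinuousFunction in
theorem Sym.rep_derived [Group.FG K] (hS : Sym S) {d : ℕ} (hG : PG K d) :
    ∃ K' : Subgroup K, K'.FiniteIndex ∧ ∃ j, ∀ g ∈ derivedSeries K' j, ∀ u ∈ HL S, ∀ x, ∀ s ∈ S,
      u (g * x * s) - u (g * x) = u (x * s) - u x := by
  classical
  let _ : TopologicalSpace (K × S) := ⊥
  have _ : DiscreteTopology (K × S) := ⟨rfl⟩
  let grad : HL S →ₗ[ℝ] (BoundedContinuousFunction (K × S) ℝ) :=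
    { toFun := fun u => ofNormedAddCommGroupDiscrete
        (fun p : K × S => u.1 (p.1 * p.2) - u.1 p.1) (mem_HL.1 u.2).2.choose
        (fun p => (mem_HL.1 u.2).2.choose_spec p.1 p.2 p.2.2)
      map_add' := fun u v => by
        ext p
        simp only [coe_ofNormedAddCommGroupDiscrete, Submodule.coe_add, Pi.add_apply,
          BoundedContinuousFunction.coe_add]
        ring
      map_smul' := fun c u => by
        ext p
        simp only [coe_ofNormedAddCommGroupDiscrete, Submodule.coe_smul, Pi.smul_apply,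
          BoundedContinuousFunction.coe_smul, smul_eq_mul, RingHom.id_apply]
        ring }
  have hgrad : ∀ (u : HL S) (p : K × S), grad u p = u.1 (p.1 * p.2) - u.1 p.1 := fun _ _ => rfl
  have := hS.HL_finite hG
  let W := LinearMap.range grad
  let sh : K → (BoundedContinuousFunction (K × S) ℝ →L[ℝ] BoundedContinuousFunction (K × S) ℝ) :=
    fun g => compContinuousCLM ℝ ℝ ⟨fun p => (g⁻¹ * p.1, p.2), continuous_of_discreteTopology⟩
  have hsh : ∀ g ω (p : K × S), sh g ω p = ω (g⁻¹ * p.1, p.2) := fun _ _ _ => rfl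
  have hW : ∀ g, ∀ ω ∈ W, sh g ω ∈ W := by
    rintro g _ ⟨u, rfl⟩
    refine ⟨⟨_, shift_mem_HL u.2 g⁻¹⟩, ?_⟩
    ext p
    simp only [hsh, hgrad, mul_assoc]
  obtain ⟨K', h1, j, hj⟩ := rep_aux hG W sh
    (fun ω => by ext p; rw [hsh, inv_one, one_mul])
    (fun g h ω => by ext p; rw [hsh, hsh, hsh, mul_inv_rev, mul_assoc])
    (fun g ω => norm_compContinuous_le _ _) hW
  refine ⟨K', h1, j, fun g hg u hu x s hs => ?_⟩
  have h3 := hj g hg (grad ⟨u, hu⟩) ⟨_, rfl⟩
  have h4 := congrArg (fun ω : BoundedContinuousFunction (K × S) ℝ => ω ((g : K) * x, ⟨s, hs⟩)) h3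
  simp only [hsh, hgrad, inv_mul_cancel_left] at h4
  exact h4.symm

theorem PG.exists_virt_surj [Group.FG K] [Infinite K] {d : ℕ} (hG : PG K d) :
    ∃ K0 : Subgroup K, K0.FiniteIndex ∧ ∃ φ : K0 →* Multiplicative ℤ, Function.Surjective φ := by
  obtain ⟨S, hS⟩ := exists_sym K
  obtain ⟨K', h1, j, hj⟩ := hS.rep_derived hG
  obtain ⟨u, hu, x0, hx0⟩ := hS.exists_HL
  let N : Subgroup K' :=
    { carrier := {g | ∀ x, u (g * x) = u x}
      one_mem' := fun x => by simp
      mul_mem' := fun {a b} ha hb x => by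
        rw [Subgroup.coe_mul, mul_assoc, ha, hb]
      inv_mem' := fun {a} ha x => by
        rw [← ha, Subgroup.coe_inv, mul_inv_cancel_left] }
  have hN : ¬ N.FiniteIndex := fun hN => by
    have : (N.map K'.subtype).FiniteIndex := by
      refine ⟨?_⟩
      rw [Subgroup.index_map_subtype]
      exact mul_ne_zero hN.index_ne_zero h1.index_ne_zero
    refine hx0 (hS.const_of_stab (mem_HL.1 hu).1 (N.map K'.subtype) ?_ x0)
    rintro _ ⟨g, hg, rfl⟩ x
    exact hg x
  have hc : ∀ g ∈ derivedSeries K' j, ∀ x, u (g * x) = u x + (u g - u 1) := fun g hg x => by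
    refine hS.induction (P := fun x => u (g * x) = u x + (u g - u 1)) (by simp) (fun x s hs h => ?_) x
    have := hj g hg u hu x s hs
    rw [← mul_assoc]
    linarith
  have hle : derivedSeries K' (j + 1) ≤ N := by
    rw [derivedSeries_succ, Subgroup.commutator_le]
    intro a ha b hb x
    have h1 := hc a ha
    have h2 := hc b hb
    have h3 := hc a⁻¹ (inv_mem ha)
    have h4 := hc b⁻¹ (inv_mem hb)
    have h5 := h1 ((a⁻¹ : K') : K)
    have h6 := h2 ((b⁻¹ : K') : K)
    rw [Subgroup.coe_inv, mul_inv_cancel] at h5 h6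
    rw [commutatorElement_def]
    simp only [Subgroup.coe_mul, mul_assoc]
    rw [h1, h2, h3, h4]
    simp only [Subgroup.coe_inv]
    linarith
  have : Group.FG K' := Subgroup.fg_of_index_ne_zero K'
  exact surj_map K' (virt_surj (j + 1) N hN hle)

end Vale.Agent.P188
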