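import Vale.Agent.P188.Gr.Defs

/-! Part Gr, file ZassA: iterated commutators near the identity die in a group of polynomial growth.
PLAN. `‖ρ g * x‖ = ‖x‖ = ‖x * ρ g‖`; `δ g = ‖ρ g - 1‖` is subadditive, `δ g⁻¹ = δ g`, `δ (t h t⁻¹ h⁻¹) = ‖ρ t ρ h - ρ h ρ t‖ ≤ 2 δ t δ h`,
`pow_lower`: `ρ h ^ i - 1 = i • (ρ h - 1) + ∑ j < i, (ρ h ^ j - 1) (ρ h - 1)`.
`count`: induction on `k`; `P = {h ^ i * p | i < m, p ∈ P'}` with `P'` for `h' = t h t⁻¹ h⁻¹`, `l' = 4 l`; an equality `h ^ i p = h ^ j p'`, `j < i`,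
gives `δ h / 2 ≤ δ (h ^ (i - j)) ≤ 4 m δ h' ≤ 8 m ε δ h < δ h / 2`. `zass_count`: `m = 2 * 5 ^ d`, `ε = 1 / (17 m)`, `exists_symm`;
`m ^ k ≤ C (m 5 ^ k + 1) ^ d ≤ C (2 m) ^ d (5 ^ d) ^ k` fails for large `k`. -/

namespace Vale.Agent.P188

open Finset

variable {K : Type*} [Group K] {S : Finset K} {A : Type*} [NormedRing A] [NormedAlgebra ℝ A]

omit [NormedAlgebra ℝ A] in
theorem zassA_mul (ρ : K →* A) (hρ : ∀ g, ‖ρ g‖ ≤ 1) (g h : K) :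
    ‖ρ (g * h) - 1‖ ≤ ‖ρ g - 1‖ + ‖ρ h - 1‖ := by
  have e : ρ (g * h) - 1 = (ρ g - 1) * ρ h + (ρ h - 1) := by rw [map_mul]; noncomm_ring
  rw [e]
  refine (norm_add_le _ _).trans (add_le_add_left ((norm_mul_le _ _).trans ?_) _)
  exact mul_le_of_le_one_right (norm_nonneg _) (hρ h)

omit [NormedAlgebra ℝ A] in
theorem zassA_inv (ρ : K →* A) (hρ : ∀ g, ‖ρ g‖ ≤ 1) (g : K) : ‖ρ g⁻¹ - 1‖ ≤ ‖ρ g - 1‖ := by
  have e : ρ g⁻¹ - 1 = -((ρ g - 1) * ρ g⁻¹) := by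
    rw [sub_mul, ← map_mul, mul_inv_cancel, map_one, one_mul, neg_sub]
  rw [e, norm_neg]
  exact (norm_mul_le _ _).trans (mul_le_of_le_one_right (norm_nonneg _) (hρ _))

omit [NormedAlgebra ℝ A] in
theorem zassA_pow (ρ : K →* A) (hρ : ∀ g, ‖ρ g‖ ≤ 1) (g : K) (i : ℕ) :
    ‖ρ (g ^ i) - 1‖ ≤ i * ‖ρ g - 1‖ := by
  induction i with
  | zero => simp
  | succ i ih =>
    rw [pow_succ]
    push_cast
    linarith [zassA_mul ρ hρ (g ^ i) g]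

omit [NormedAlgebra ℝ A] in
theorem zassA_comm (ρ : K →* A) (hρ : ∀ g, ‖ρ g‖ ≤ 1) (t h : K) :
    ‖ρ (t * h * t⁻¹ * h⁻¹) - 1‖ ≤ 2 * ‖ρ t - 1‖ * ‖ρ h - 1‖ := by
  have e : ρ (t * h * t⁻¹ * h⁻¹) - 1 =
      ((ρ t - 1) * (ρ h - 1) - (ρ h - 1) * (ρ t - 1)) * ρ (t⁻¹ * h⁻¹) := by
    have e1 : (1 : A) = ρ h * ρ t * ρ (t⁻¹ * h⁻¹) := by
      rw [← map_mul, ← map_mul, ← map_one ρ]; congr 1; group
    have e2 : ρ (t * h * t⁻¹ * h⁻¹) = ρ t * ρ h * ρ (t⁻¹ * h⁻¹) := by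
      rw [← map_mul, ← map_mul, mul_assoc (t * h)]
    have e3 : (ρ t - 1) * (ρ h - 1) - (ρ h - 1) * (ρ t - 1) = ρ t * ρ h - ρ h * ρ t := by
      noncomm_ring
    rw [e3, sub_mul, ← e1, e2]
  rw [e]
  refine (norm_mul_le _ _).trans ((mul_le_of_le_one_right (norm_nonneg _) (hρ _)).trans
    ((norm_sub_le _ _).trans ?_))
  linarith [norm_mul_le (ρ t - 1) (ρ h - 1), norm_mul_le (ρ h - 1) (ρ t - 1)]

theorem zass_pow_lower (ρ : K →* A) (hρ : ∀ g, ‖ρ g‖ ≤ 1) (h : K) {i : ℕ} (hi : 1 ≤ i)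
    (hε : i * ‖ρ h - 1‖ ≤ 1) : ‖ρ h - 1‖ / 2 ≤ ‖ρ (h ^ i) - 1‖ := by
  have key : ∀ j : ℕ, ‖ρ (h ^ j) - 1 - (j : ℝ) • (ρ h - 1)‖ ≤ j ^ 2 / 2 * ‖ρ h - 1‖ ^ 2 := by
    intro j
    induction j with
    | zero => simp
    | succ j ih =>
      have e : ρ (h ^ (j + 1)) - 1 - ((j + 1 : ℕ) : ℝ) • (ρ h - 1) =
          (ρ (h ^ j) - 1 - (j : ℝ) • (ρ h - 1)) + (ρ (h ^ j) - 1) * (ρ h - 1) := by
        rw [pow_succ, map_mul, Nat.cast_succ, add_smul, one_smul]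
        generalize (j : ℝ) • (ρ h - 1) = u
        noncomm_ring
      rw [e]
      have h1 := norm_mul_le (ρ (h ^ j) - 1) (ρ h - 1)
      have h2 := mul_le_mul_of_nonneg_right (zassA_pow ρ hρ h j) (norm_nonneg (ρ h - 1))
      refine (norm_add_le _ _).trans ?_
      push_cast
      nlinarith [sq_nonneg ‖ρ h - 1‖]
  have h1 := key i
  have h2 := norm_sub_norm_le ((i : ℝ) • (ρ h - 1)) (ρ (h ^ i) - 1)
  rw [norm_sub_rev ((i : ℝ) • (ρ h - 1)), norm_smul, Real.norm_natCast] at h2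
  have h3 : (1 : ℝ) ≤ i := by exact_mod_cast hi
  have h4 := norm_nonneg (ρ h - 1)
  have h5 : 0 ≤ i * ‖ρ h - 1‖ := by positivity
  nlinarith [mul_le_mul_of_nonneg_left hε h5, mul_le_mul_of_nonneg_right h3 h4]

theorem zass_card (ρ : K →* A) (hρ : ∀ g, ‖ρ g‖ ≤ 1) {T : Finset K} (hT : T ⊆ S) (h1 : 1 ∈ S)
    (hS : ∀ s ∈ S, s⁻¹ ∈ S) {m : ℕ} {ε : ℝ} (hm : 1 ≤ m) (hε : 16 * m * ε < 1)
    (hρT : ∀ t ∈ T, ‖ρ t - 1‖ ≤ ε) (k : ℕ) : ∀ (h : K) (l : ℕ), 1 ≤ l → h ∈ bl S l →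
      ‖ρ h - 1‖ ≤ ε → Surv ρ T k h → ∃ P : Finset K, m ^ k ≤ P.card ∧
        P ⊆ bl S (m * l * 5 ^ k) ∧ ∀ p ∈ P, ‖ρ p - 1‖ ≤ 2 * m * ‖ρ h - 1‖ := by
  classical
  have hm' : (1 : ℝ) ≤ m := by exact_mod_cast hm
  induction k with
  | zero =>
    intro h l _ _ _ _
    refine ⟨{1}, by simp, singleton_subset_iff.2 (one_mem_bl h1 _), fun p hp => ?_⟩
    rw [mem_singleton.1 hp, map_one, sub_self, norm_zero]
    positivity
  | succ k ih =>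
    rintro h l hl hh hδ ⟨hne, t, ht, hs⟩
    have hpos : 0 < ‖ρ h - 1‖ := norm_pos_iff.2 (sub_ne_zero.2 hne)
    have hε0 : 0 < ε := hpos.trans_le hδ
    have hc : ‖ρ (t * h * t⁻¹ * h⁻¹) - 1‖ ≤ 2 * ε * ‖ρ h - 1‖ :=
      (zassA_comm ρ hρ t h).trans (by gcongr; exact hρT t ht)
    have hb : t * h * t⁻¹ * h⁻¹ ∈ bl S (4 * l) :=
      bl_mono h1 (by omega) (mul_mem_bl (mul_mem_bl (mul_mem_bl (mem_bl_one (hT ht)) hh)
        (mem_bl_one (hS t (hT ht)))) (inv_mem_bl hS hh))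
    have hmε : ε ≤ m * ε := le_mul_of_one_le_left hε0.le hm'
    obtain ⟨P, hP1, hP2, hP3⟩ := ih _ (4 * l) (by omega) hb (hc.trans (by nlinarith)) hs
    have hP4 : ∀ p ∈ P, ‖ρ p - 1‖ < ‖ρ h - 1‖ / 4 := fun p hp => by
      refine ((hP3 p hp).trans (mul_le_mul_of_nonneg_left hc (by positivity))).trans_lt ?_
      nlinarith [mul_lt_mul_of_pos_right hε hpos]
    have hne : ∀ i j, j < i → i < m → ∀ p ∈ P, ∀ q ∈ P, h ^ i * p ≠ h ^ j * q := by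
      intro i j hji hi p hp q hq e
      obtain ⟨c, rfl⟩ := Nat.exists_eq_add_of_lt hji
      have e' : h ^ (c + 1) = q * p⁻¹ := by
        rw [add_assoc, pow_add, mul_assoc] at e
        rw [← mul_left_cancel e, mul_inv_cancel_right]
      have hc' : ((c + 1 : ℕ) : ℝ) ≤ m := by exact_mod_cast (by omega : c + 1 ≤ m)
      have := zass_pow_lower ρ hρ h (i := c + 1) (by omega)
        ((mul_le_mul hc' hδ (norm_nonneg _) (by positivity)).trans (by linarith))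
      rw [e'] at this
      linarith [zassA_mul ρ hρ q p⁻¹, zassA_inv ρ hρ p, hP4 p hp, hP4 q hq]
    refine ⟨(range m ×ˢ P).image fun x => h ^ x.1 * x.2, ?_, fun x hx0 => ?_, fun x hx0 => ?_⟩
    · rw [card_image_of_injOn, card_product, card_range, pow_succ']
      · exact Nat.mul_le_mul_left _ hP1
      · rintro ⟨i, p⟩ hx ⟨j, q⟩ hy e
        simp only [coe_product, coe_range, Set.mem_prod, Set.mem_Iio, mem_coe] at hx hy
        rcases lt_trichotomy i j with hij | rfl | hij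
        · exact absurd e.symm (hne j i hij hy.1 q hy.2 p hx.2)
        · exact Prod.ext rfl (mul_left_cancel e)
        · exact absurd e (hne i j hij hx.1 p hx.2 q hy.2)
    · obtain ⟨⟨i, p⟩, hx, rfl⟩ := mem_image.1 hx0
      rw [mem_product, mem_range] at hx
      refine bl_mono h1 ?_ (mul_mem_bl (pow_mem_bl hh i) (hP2 hx.2))
      have h5 : 1 ≤ 5 ^ k := Nat.one_le_pow _ _ (by omega)
      have h6 : l * i ≤ m * l * 5 ^ k :=
        calc l * i ≤ l * m := Nat.mul_le_mul_left _ hx.1.le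
          _ = m * l * 1 := by ring
          _ ≤ _ := Nat.mul_le_mul_left _ h5
      rw [pow_succ]
      nlinarith
    · obtain ⟨⟨i, p⟩, hx, rfl⟩ := mem_image.1 hx0
      rw [mem_product, mem_range] at hx
      have hi : (i : ℝ) ≤ m := by exact_mod_cast hx.1.le
      have := mul_le_mul_of_nonneg_right hi hpos.le
      have := mul_le_mul_of_nonneg_right hm' hpos.le
      linarith [zassA_mul ρ hρ (h ^ i) p, zassA_pow ρ hρ h i, hP4 p hx.2]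

theorem zass_count (ρ : K →* A) (hρ : ∀ g, ‖ρ g‖ ≤ 1) {d : ℕ} (hG : PG K d) :
    ∃ ε : ℝ, 0 < ε ∧ ∀ T : Finset K, (∀ t ∈ T, ‖ρ t - 1‖ ≤ ε) →
      ∃ k, ∀ h ∈ T, ¬ Surv ρ T k h := by
  have hm : 1 ≤ 2 * 5 ^ d := by have := Nat.one_le_pow d 5 (by omega); omega
  generalize hm0 : 2 * 5 ^ d = m at hm
  have hm' : (1 : ℝ) ≤ m := by exact_mod_cast hm
  refine ⟨1 / (17 * m), by positivity, fun T hT => ?_⟩
  obtain ⟨S, h1, h2, h3, -⟩ := exists_symm T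
  obtain ⟨C, hC⟩ := hG S
  have hC0 : 0 ≤ C := by
    have := hC 0
    simp only [Nat.cast_zero, zero_add, one_pow, mul_one] at this
    exact (Nat.cast_nonneg _).trans this
  obtain ⟨k, hk⟩ := pow_unbounded_of_one_lt (C * (2 * m) ^ d) (one_lt_two (α := ℝ))
  refine ⟨k, fun h hh hs => ?_⟩
  obtain ⟨P, hP1, hP2, -⟩ := zass_card ρ hρ h1 h2 h3 hm (ε := 1 / (17 * m))
    (by rw [mul_one_div, div_lt_one (by positivity)]; linarith) hT k h 1 le_rfl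
    (mem_bl_one (h1 hh)) (hT h hh) hs
  have h4 : ((m ^ k : ℕ) : ℝ) ≤ _ := (Nat.cast_le.2 (hP1.trans (card_le_card hP2))).trans (hC _)
  have h5 : (1 : ℝ) ≤ 5 ^ k := one_le_pow₀ (by norm_num)
  have h6 : (((m * 1 * 5 ^ k : ℕ) : ℝ) + 1) ^ d ≤ (2 * m * 5 ^ k) ^ d := by
    gcongr
    push_cast
    nlinarith
  have h7 : ((m ^ k : ℕ) : ℝ) = 2 ^ k * (5 ^ k) ^ d := by
    rw [← hm0]; push_cast; rw [mul_pow, ← pow_mul, ← pow_mul, mul_comm d k]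
  have h8 := h4.trans (mul_le_mul_of_nonneg_left h6 hC0)
  rw [h7, mul_pow, ← mul_assoc] at h8
  exact absurd (le_of_mul_le_mul_right h8 (by positivity)) (not_le.2 hk)

end Vale.Agent.P188
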